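import Vale.Agent.P249.Cover

/-! Concentration for sparse random sums. -/

namespace Vale.Agent.P249

open Finset Real

lemma prod_exp {ι κ : Type*} [Fintype ι] [DecidableEq ι] [Fintype κ] (P f : ι → κ → ℝ) :
    ∑ ξ : ι → κ, (∏ i, P i (ξ i)) * ∏ i, f i (ξ i) = ∏ i, ∑ x, P i x * f i x := by
  rw [prod_univ_sum (fun _ => univ) fun i x => P i x * f i x, Fintype.piFinset_univ]
  simp only [prod_mul_distrib]

lemma exists_le_avg {α : Type*} [Fintype α] {w f : α → ℝ} {c : ℝ} (h0 : ∀ x, 0 ≤ w x)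
    (h1 : ∑ x, w x = 1) (h : ∑ x, w x * f x ≤ c) : ∃ x, f x ≤ c := by
  by_contra hn
  push Not at hn
  obtain ⟨x0, hx0⟩ : ∃ x, 0 < w x := by
    by_contra hn'
    push Not at hn'
    have : ∑ x, w x ≤ 0 := sum_nonpos fun x _ => hn' x
    linarith
  have : ∑ x, w x * c < ∑ x, w x * f x :=
    sum_lt_sum (fun x _ => mul_le_mul_of_nonneg_left (hn x).le (h0 x))
      ⟨x0, mem_univ _, mul_lt_mul_of_pos_left (hn x0) hx0⟩
  rw [← sum_mul, h1] at this
  linarith

lemma exp_le_quad {y : ℝ} (h : |y| ≤ 1) : exp y ≤ 1 + y + y ^ 2 := by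
  linarith [(abs_le.1 (abs_exp_sub_one_sub_id_le h)).2]

lemma conc {Ξ E : Type} [Fintype Ξ] [Fintype E] (P : Ξ → ℝ) (hP0 : ∀ x, 0 ≤ P x)
    (hP1 : ∑ x, P x = 1) (V R : E → Ξ → ℝ) {Q a b t : ℝ} (hQ : 0 < Q) (ha : 0 < a) (ht0 : 0 < t)
    (ht1 : t ≤ 1) (hV0 : ∀ e x, 0 ≤ V e x) (hVQ : ∀ e x, V e x ≤ Q) (hR0 : ∀ e x, 0 ≤ R e x)
    (hl : ∀ e, a ≤ ∑ x, P x * V e x) (hu : ∀ e, ∑ x, P x * V e x ≤ b)
    (hR : ∀ e, 2 * Fintype.card E * ∑ x, P x * R e x ≤ t * a) {d : ℕ} (hd0 : 0 < d)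
    (hd : Q * log (4 * Fintype.card E) / (t ^ 2 * a) ≤ d) :
    ∃ ξ : Fin d → Ξ, ∀ e, (1 - 2 * t) * a * d ≤ ∑ j, V e (ξ j) ∧
      ∑ j, V e (ξ j) ≤ (1 + 2 * t) * b * d ∧ ∑ j, R e (ξ j) ≤ t * a * d := by
  rcases isEmpty_or_nonempty E with hE | hE
  · obtain ⟨x, -⟩ := exists_le_avg (f := fun _ => 0) (c := 0) hP0 hP1 (by simp)
    exact ⟨fun _ => x, fun e => hE.elim e⟩
  have hE : (0 : ℝ) < Fintype.card E := by exact_mod_cast Fintype.card_pos
  have hd' : (0 : ℝ) < d := by exact_mod_cast hd0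
  set s := t / Q with hs
  have hs0 : 0 < s := by positivity
  have hsV : ∀ e x, s * V e x ≤ t := fun e x => by
    rw [hs, div_mul_eq_mul_div, div_le_iff₀ hQ]
    exact mul_le_mul_of_nonneg_left (hVQ e x) ht0.le
  have hexp : exp (-(s * t * a)) ^ d ≤ 1 / (4 * Fintype.card E) := by
    rw [← exp_nat_mul, one_div, ← exp_log (show 0 < 4 * (Fintype.card E : ℝ) by positivity),
      ← exp_neg, exp_le_exp]
    rw [div_le_iff₀ (by positivity)] at hd
    have : d * (s * t * a) = d * (t ^ 2 * a) / Q := by rw [hs]; ring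
    rw [mul_neg, neg_le_neg_iff, this, le_div_iff₀ hQ]
    linarith
  have hup : ∀ e, ∑ x, P x * exp (s * (V e x - (1 + 2 * t) * b)) ≤ exp (-(s * t * a)) := by
    intro e
    have e1 : ∑ x, P x * exp (s * V e x) ≤ ∑ x, (P x + s * (1 + t) * (P x * V e x)) :=
      sum_le_sum fun x _ => by
        have h0 := mul_nonneg hs0.le (hV0 e x)
        have h1 := exp_le_quad (y := s * V e x) (by rw [abs_of_nonneg h0]; linarith [hsV e x])
        have h2 : (s * V e x) ^ 2 ≤ t * (s * V e x) := by nlinarith [hsV e x]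
        nlinarith [hP0 x, mul_le_mul_of_nonneg_left (h1.trans (add_le_add le_rfl h2)) (hP0 x)]
    rw [sum_add_distrib, hP1, ← mul_sum] at e1
    simp only [mul_sub, exp_sub, ← mul_div_assoc, ← sum_div]
    rw [div_le_iff₀ (exp_pos _), ← exp_add]
    refine e1.trans (le_trans ?_ (add_one_le_exp _))
    have := hl e
    have := hu e
    nlinarith [mul_le_mul_of_nonneg_left (hu e) (show 0 ≤ s * (1 + t) by positivity),
      mul_le_mul_of_nonneg_left ((hl e).trans (hu e)) (show 0 ≤ s * t by positivity)]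
  have hlo : ∀ e, ∑ x, P x * exp (s * ((1 - 2 * t) * a - V e x)) ≤ exp (-(s * t * a)) := by
    intro e
    have e1 : ∑ x, P x * exp (-(s * V e x)) ≤ ∑ x, (P x - s * (1 - t) * (P x * V e x)) :=
      sum_le_sum fun x _ => by
        have h0 := mul_nonneg hs0.le (hV0 e x)
        have h1 := exp_le_quad (y := -(s * V e x)) (by
          rw [abs_neg, abs_of_nonneg h0]; linarith [hsV e x])
        have h2 : (-(s * V e x)) ^ 2 ≤ t * (s * V e x) := by nlinarith [hsV e x]
        nlinarith [hP0 x, mul_le_mul_of_nonneg_left (h1.trans (add_le_add le_rfl h2)) (hP0 x)]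
    rw [sum_sub_distrib, hP1, ← mul_sum] at e1
    simp only [mul_sub s, sub_eq_add_neg (s * _), exp_add, mul_left_comm (P _), ← mul_sum]
    have e2 := mul_le_mul_of_nonneg_left (hl e) (mul_nonneg hs0.le (sub_nonneg.2 ht1))
    have e3 : ∑ x, P x * exp (-(s * V e x)) ≤ exp (-(s * (1 - t) * a)) := by
      linarith [add_one_le_exp (-(s * (1 - t) * a))]
    refine (mul_le_mul_of_nonneg_left e3 (exp_pos _).le).trans (le_of_eq ?_)
    rw [← exp_add]
    ring_nf
  have hw1 : ∑ ξ : Fin d → Ξ, ∏ j, P (ξ j) = 1 := by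
    simpa [hP1] using prod_exp (fun (_ : Fin d) => P) fun _ _ => 1
  obtain ⟨ξ, hξ⟩ := exists_le_avg (w := fun ξ : Fin d → Ξ => ∏ j, P (ξ j))
    (f := fun ξ => ∑ e, (∏ j, exp (s * (V e (ξ j) - (1 + 2 * t) * b)) +
      (∏ j, exp (s * ((1 - 2 * t) * a - V e (ξ j))) + (∑ j, R e (ξ j)) / (t * a * d)))) (c := 1)
    (fun ξ => prod_nonneg fun j _ => hP0 _) hw1 (by
      simp only [mul_sum]
      rw [sum_comm]
      refine (sum_le_card_nsmul (univ : Finset E) _ (1 / Fintype.card E : ℝ) fun e _ => ?_).trans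
        (by rw [card_univ, nsmul_eq_mul, mul_one_div_cancel hE.ne'])
      simp only [mul_add, sum_add_distrib]
      rw [prod_exp (fun (_ : Fin d) => P) fun _ x => exp (s * (V e x - (1 + 2 * t) * b)),
        prod_exp (fun (_ : Fin d) => P) fun _ x => exp (s * ((1 - 2 * t) * a - V e x)),
        prod_const, prod_const, card_univ, Fintype.card_fin]
      have e1 := (pow_le_pow_left₀ (sum_nonneg fun x _ => mul_nonneg (hP0 x) (exp_pos _).le)
        (hup e) d).trans hexp
      have e2 := (pow_le_pow_left₀ (sum_nonneg fun x _ => mul_nonneg (hP0 x) (exp_pos _).le)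
        (hlo e) d).trans hexp
      have e3 : ∀ j : Fin d, ∑ ξ : Fin d → Ξ, (∏ j, P (ξ j)) * R e (ξ j) = ∑ x, P x * R e x := by
        intro j
        have := prod_exp (fun (_ : Fin d) => P) fun i x => if i = j then R e x else 1
        simp only [prod_ite_eq', mem_univ, if_true] at this
        rw [this, prod_eq_single j (fun i _ hi => by simp [hi, hP1]) (by simp)]
        simp
      have e4 : ∑ ξ : Fin d → Ξ, (∏ j, P (ξ j)) * ((∑ j, R e (ξ j)) / (t * a * d)) ≤
          1 / (2 * Fintype.card E) := by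
        simp only [← mul_div_assoc, ← sum_div, mul_sum]
        rw [sum_comm]
        simp only [e3, sum_const, card_univ, Fintype.card_fin, nsmul_eq_mul]
        rw [div_le_div_iff₀ (by positivity) (by positivity)]
        nlinarith [hR e]
      have e5 : (1 : ℝ) / Fintype.card E = 1 / (4 * Fintype.card E) + (1 / (4 * Fintype.card E) +
        1 / (2 * Fintype.card E)) := by field_simp; norm_num
      linarith)
  refine ⟨ξ, fun e => ?_⟩
  have p1 : ∀ e, 0 < ∏ j, exp (s * (V e (ξ j) - (1 + 2 * t) * b)) := fun e =>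
    prod_pos fun _ _ => exp_pos _
  have p2 : ∀ e, 0 < ∏ j, exp (s * ((1 - 2 * t) * a - V e (ξ j))) := fun e =>
    prod_pos fun _ _ => exp_pos _
  have p3 : ∀ e, 0 ≤ (∑ j, R e (ξ j)) / (t * a * d) := fun e =>
    div_nonneg (sum_nonneg fun _ _ => hR0 _ _) (by positivity)
  have := (single_le_sum (f := fun e => ∏ j, exp (s * (V e (ξ j) - (1 + 2 * t) * b)) +
      (∏ j, exp (s * ((1 - 2 * t) * a - V e (ξ j))) + (∑ j, R e (ξ j)) / (t * a * d)))
    (fun e _ => by linarith [p1 e, p2 e, p3 e]) (mem_univ e)).trans hξ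
  refine ⟨?_, ?_, ?_⟩
  · have h : ∏ j, exp (s * ((1 - 2 * t) * a - V e (ξ j))) ≤ 1 := by linarith [p1 e, p3 e]
    rw [← exp_sum, exp_le_one_iff, ← mul_sum, sum_sub_distrib, sum_const, card_univ,
      Fintype.card_fin, nsmul_eq_mul] at h
    nlinarith [nonpos_of_mul_nonpos_right h hs0]
  · have h : ∏ j, exp (s * (V e (ξ j) - (1 + 2 * t) * b)) ≤ 1 := by linarith [p2 e, p3 e]
    rw [← exp_sum, exp_le_one_iff, ← mul_sum, sum_sub_distrib, sum_const, card_univ,
      Fintype.card_fin, nsmul_eq_mul] at h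
    nlinarith [nonpos_of_mul_nonpos_right h hs0]
  · have h : (∑ j, R e (ξ j)) / (t * a * d) ≤ 1 := by linarith [p1 e, p2 e]
    rwa [div_le_one (by positivity)] at h

lemma sample {I E : Type} [Fintype I] [Fintype E] (q : I → ℝ) (hq0 : ∀ i, 0 ≤ q i)
    (hq1 : ∀ i, q i ≤ 1) (β : E → I → ℝ) {p B κ μ₀ μ₁ t : ℝ} (hp : 1 ≤ p) (hB0 : 0 < B)
    (hB : ∀ e i, |β e i| ≤ B) (hκ1 : κ < 1) (hκ : ∀ e, ∑ i with β e i ≠ 0, q i ≤ κ)
    (hμ : 0 < μ₀) (hμ₀ : ∀ e, μ₀ ≤ ∑ i, q i * |β e i| ^ p) (hμ₁ : ∀ e, ∑ i, q i * |β e i| ^ p ≤ μ₁)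
    (ht0 : 0 < t) (ht1 : t ≤ 1) {r : ℕ} (hr1 : 1 ≤ r)
    (hr : 2 * Fintype.card E * (exp (-r) * (exp (κ * exp p) * μ₁)) ≤ t * ((1 - κ) * μ₀))
    {d : ℕ} (hd0 : 0 < d)
    (hd : (r * B) ^ p * log (4 * Fintype.card E) / (t ^ 2 * ((1 - κ) * μ₀)) ≤ d) :
    ∃ ξ : Fin d → I → Bool, ∀ e,
      (1 - 2 * t) * ((1 - κ) * μ₀) * d ≤ ∑ j, |∑ i, if ξ j i then β e i else 0| ^ p ∧
      ∑ j, |∑ i, if ξ j i then β e i else 0| ^ p ≤
        ((1 + 2 * t) * (exp (κ * exp p) * μ₁) + t * ((1 - κ) * μ₀)) * d := by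
  classical
  have hp0 : p ≠ 0 := by linarith
  have hr0 : (0 : ℝ) < r := by exact_mod_cast hr1
  let P : (I → Bool) → ℝ := fun ξ => ∏ i, if ξ i then q i else 1 - q i
  have hP0 : ∀ ξ, 0 ≤ P ξ := fun ξ => prod_nonneg fun i _ => by
    split_ifs; exacts [hq0 i, sub_nonneg.2 (hq1 i)]
  have hP1 : ∑ ξ, P ξ = 1 := by
    simpa using prod_exp (fun i (b : Bool) => if b then q i else 1 - q i) fun _ _ => 1
  let act : E → (I → Bool) → Finset I := fun e ξ => univ.filter fun i => β e i ≠ 0 ∧ ξ i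
  let Y : E → (I → Bool) → ℝ := fun e ξ => |∑ i, if ξ i then β e i else 0| ^ p
  have hY : ∀ e ξ, Y e ξ = |∑ i ∈ act e ξ, β e i| ^ p := fun e ξ => by
    simp only [Y, act, sum_filter]
    congr 2
    refine sum_congr rfl fun i _ => ?_
    by_cases h : β e i = 0 <;> simp [h]
  have hY0 : ∀ e ξ, 0 ≤ Y e ξ := fun e ξ => rpow_nonneg (abs_nonneg _) _
  let G : ℝ → E → (I → Bool) → ℝ := fun T e ξ =>
    ∑ i ∈ act e ξ, |β e i| ^ p * T ^ ((act e ξ).card - 1)
  have hG : ∀ T e, ∑ ξ, P ξ * G T e ξ = ∑ i₀, q i₀ * |β e i₀| ^ p *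
      ∏ i ∈ univ.erase i₀, if β e i ≠ 0 then 1 + q i * (T - 1) else 1 := by
    intro T e
    have e1 : ∀ ξ, G T e ξ = ∑ i₀, |β e i₀| ^ p * ∏ i,
        if i = i₀ then (if ξ i then 1 else 0) else if β e i ≠ 0 ∧ ξ i then T else 1 := by
      intro ξ
      simp only [G]
      rw [← sum_subset (subset_univ (act e ξ))]
      · refine sum_congr rfl fun i₀ hi => ?_
        rw [← mul_prod_erase _ _ (mem_univ i₀), if_pos rfl, if_pos (mem_filter.1 hi).2.2, one_mul,
          ← card_erase_of_mem hi, ← prod_const]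
        congr 1
        rw [← prod_subset (erase_subset_erase i₀ (subset_univ (act e ξ)))]
        · exact prod_congr rfl fun i hi => by
            rw [if_neg (ne_of_mem_erase hi), if_pos (mem_filter.1 (mem_of_mem_erase hi)).2]
        · intro i hi hi'
          rw [if_neg (ne_of_mem_erase hi), if_neg]
          exact fun h => hi' (mem_erase.2 ⟨ne_of_mem_erase hi, by simpa [act] using h⟩)
      · intro i₀ _ hi
        by_cases h : β e i₀ = 0
        · simp [h, hp0]
        · rw [← mul_prod_erase _ _ (mem_univ i₀), if_pos rfl, if_neg (by simpa [act, h] using hi)]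
          simp
    simp only [e1, mul_sum]
    rw [sum_comm]
    refine sum_congr rfl fun i₀ _ => ?_
    simp only [mul_left_comm (P _), ← mul_sum]
    rw [prod_exp (fun i (b : Bool) => if b then q i else 1 - q i) fun i b =>
      if i = i₀ then (if b then 1 else 0) else if β e i ≠ 0 ∧ b then T else 1,
      ← mul_prod_erase _ _ (mem_univ i₀), mul_comm (q i₀), mul_assoc]
    congr 2
    · simp
    · refine prod_congr rfl fun i hi => ?_
      by_cases h : β e i = 0 <;> simp [h, ne_of_mem_erase hi]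
      ring
  have hsub : ∀ e i₀, ∑ i ∈ univ.erase i₀, (if β e i ≠ 0 then q i else 0) ≤ κ := fun e i₀ => by
    refine le_trans (sum_le_sum_of_subset_of_nonneg (erase_subset _ _) fun i _ _ => ?_)
      ((sum_filter _ _).symm.trans_le (hκ e))
    split_ifs; exacts [hq0 i, le_rfl]
  have hGu : ∀ e, ∑ ξ, P ξ * G (exp p) e ξ ≤ exp (κ * exp p) * μ₁ := fun e => by
    rw [hG, mul_comm]
    refine le_trans ?_ (mul_le_mul_of_nonneg_right (hμ₁ e) (exp_pos _).le)
    rw [sum_mul]
    refine sum_le_sum fun i₀ _ => mul_le_mul_of_nonneg_left ?_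
      (mul_nonneg (hq0 _) (rpow_nonneg (abs_nonneg _) _))
    refine le_trans (prod_le_prod (g := fun i => exp ((if β e i ≠ 0 then q i else 0) * exp p))
      (fun i _ => ?_) fun i _ => ?_) ?_
    · have := one_le_exp (show 0 ≤ p by linarith)
      split_ifs
      · nlinarith [hq0 i]
      · exact zero_le_one
    · split_ifs
      · nlinarith [add_one_le_exp (q i * exp p), hq0 i]
      · simp
    · rw [← exp_sum, ← sum_mul]
      gcongr
      exact hsub e i₀
  have hGl : ∀ e, (1 - κ) * μ₀ ≤ ∑ ξ, P ξ * G 0 e ξ := fun e => by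
    rw [hG]
    refine (mul_le_mul_of_nonneg_left (hμ₀ e) (by linarith)).trans ?_
    rw [mul_comm, sum_mul]
    refine sum_le_sum fun i₀ _ => mul_le_mul_of_nonneg_left ?_
      (mul_nonneg (hq0 _) (rpow_nonneg (abs_nonneg _) _))
    refine le_trans (sub_le_sub_left (hsub e i₀) 1) (one_sub_sum_le_prod _ (fun i _ => ?_)
      (fun i _ => ?_) fun i _ => ?_)
    all_goals split_ifs <;> linarith [hq0 i, hq1 i]
  have hYG : ∀ e ξ, exp (((act e ξ).card - 1 : ℕ)) * Y e ξ ≤ G (exp p) e ξ := fun e ξ => by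
    rcases (act e ξ).eq_empty_or_nonempty with h | h
    · simp [hY, G, h, hp0]
    have hc : 1 ≤ (act e ξ).card := h.card_pos
    have e1 := (rpow_le_rpow (abs_nonneg _) (abs_sum_le_sum_abs (β e) (act e ξ))
      (by linarith)).trans (rpow_sum_le_const_mul_sum_rpow (act e ξ) (β e) hp)
    have e2 : ((act e ξ).card : ℝ) ≤ exp (((act e ξ).card - 1 : ℕ)) := by
      have := add_one_le_exp (((act e ξ).card - 1 : ℕ) : ℝ)
      rw [Nat.cast_sub hc] at this ⊢
      push_cast at this ⊢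
      linarith
    have e3 := rpow_le_rpow (by positivity) e2 (sub_nonneg.2 hp)
    rw [hY]
    simp only [G, ← sum_mul]
    rw [← exp_nat_mul, mul_comm (∑ _ ∈ _, _)]
    calc _ ≤ exp (((act e ξ).card - 1 : ℕ)) * (exp (((act e ξ).card - 1 : ℕ)) ^ (p - 1) *
          ∑ i ∈ act e ξ, |β e i| ^ p) := by
          gcongr
          exact e1.trans (by gcongr)
      _ = _ := by
          rw [← exp_mul, ← mul_assoc, ← exp_add]
          ring_nf
  obtain ⟨ξ, hξ⟩ := conc P hP0 hP1 (fun e ξ => if (act e ξ).card ≤ r then Y e ξ else 0)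
    (fun e ξ => if (act e ξ).card ≤ r then 0 else Y e ξ) (Q := (r * B) ^ p)
    (a := (1 - κ) * μ₀) (b := exp (κ * exp p) * μ₁) (by positivity)
    (mul_pos (by linarith) hμ) ht0 ht1
    (fun e ξ => by split_ifs; exacts [hY0 e ξ, le_rfl])
    (fun e ξ => by
      split_ifs with h
      · rw [hY]
        refine rpow_le_rpow (abs_nonneg _) ((abs_sum_le_sum_abs _ _).trans
          ((sum_le_card_nsmul _ _ B fun i _ => hB e i).trans ?_)) (by linarith)
        rw [nsmul_eq_mul]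
        gcongr
      · positivity)
    (fun e ξ => by split_ifs; exacts [le_rfl, hY0 e ξ])
    (fun e => (hGl e).trans (sum_le_sum fun ξ _ => mul_le_mul_of_nonneg_left (by
      by_cases h : (act e ξ).card = 1
      · obtain ⟨i, hi⟩ := card_eq_one.1 h
        rw [if_pos (h ▸ hr1), hY]
        simp [G, hi]
      · have : G 0 e ξ = 0 := sum_eq_zero fun i hi => by
          have := card_pos.2 ⟨i, hi⟩
          rw [zero_pow (by omega), mul_zero]
        rw [this]
        split_ifs; exacts [hY0 e ξ, le_rfl]) (hP0 ξ)))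
    (fun e => le_trans (sum_le_sum fun ξ _ => mul_le_mul_of_nonneg_left (by
      refine le_trans ?_ ((le_mul_of_one_le_left (hY0 e ξ)
        (one_le_exp (Nat.cast_nonneg _))).trans (hYG e ξ))
      split_ifs; exacts [le_rfl, hY0 e ξ]) (hP0 ξ)) (hGu e))
    (fun e => by
      refine le_trans (mul_le_mul_of_nonneg_left ?_ (by positivity)) hr
      refine le_trans ?_ (mul_le_mul_of_nonneg_left (hGu e) (exp_pos _).le)
      rw [mul_sum]
      refine sum_le_sum fun ξ _ => ?_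
      rw [mul_left_comm]
      refine mul_le_mul_of_nonneg_left (le_trans ?_
        (mul_le_mul_of_nonneg_left (hYG e ξ) (exp_pos _).le)) (hP0 ξ)
      rw [← mul_assoc, ← exp_add]
      split_ifs with h
      · exact mul_nonneg (exp_pos _).le (hY0 e ξ)
      · refine le_mul_of_one_le_left (hY0 e ξ) (one_le_exp ?_)
        have : (r : ℝ) ≤ ((act e ξ).card - 1 : ℕ) := by exact_mod_cast (by omega)
        linarith) hd0 hd
  refine ⟨ξ, fun e => ⟨(hξ e).1.trans (sum_le_sum fun j _ => ?_), ?_⟩⟩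
  · split_ifs; exacts [le_rfl, hY0 e _]
  · rw [add_mul]
    refine le_trans (le_of_eq ?_) (add_le_add (hξ e).2.1 (hξ e).2.2)
    rw [← sum_add_distrib]
    refine sum_congr rfl fun j _ => ?_
    split_ifs <;> simp [Y]

end Vale.Agent.P249
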