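import Vale.Agent.P249.Haj
import Vale.Agent.P249.Sample

/-! Band-limited Lipschitz truncations and the finite-dimensional theorem. -/

namespace Vale.Agent.P249

open Finset Real

lemma abs_add_rpow_le {p δ : ℝ} (hp : 0 ≤ p) (hδ : 0 < δ) (a b : ℝ) :
    |a + b| ^ p ≤ (1 + δ) ^ p * |a| ^ p + (1 + 1 / δ) ^ p * |b| ^ p := by
  have h0 := abs_add_le a b
  rw [← mul_rpow (by positivity) (abs_nonneg _), ← mul_rpow (by positivity) (abs_nonneg _)]
  rcases le_total |b| (δ * |a|) with h | h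
  · exact (rpow_le_rpow (abs_nonneg _) (by linarith) hp).trans
      (le_add_of_nonneg_right (by positivity))
  · refine (rpow_le_rpow (abs_nonneg _) ?_ hp).trans (le_add_of_nonneg_left (by positivity))
    have : |a| ≤ 1 / δ * |b| := by rw [one_div, le_inv_mul_iff₀ hδ]; exact h
    linarith

/-- Difference of two window averages. -/
noncomputable def band (T W : ℕ) (Δ : ℕ → ℝ) (a : ℕ) : ℝ :=
  (∑ i ∈ range T, (Δ (a + i + (T + W)) - Δ (a + i))) / T

lemma band_spec {p δ c σ H : ℝ} (hp : 1 ≤ p) (hδ : 0 < δ) (hc : 0 < c) (hH : 0 ≤ H) {T : ℕ}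
    (hT : 0 < T) (W K : ℕ) {Δ : ℕ → ℝ} (h1 : ∀ j, H ≤ c * 2 ^ j → Δ j = σ)
    (h2 : ∀ j, |Δ j| ≤ 2 * (c * 2 ^ j)) (h3 : σ ≠ 0 → c * 2 ^ (T + W) < H) (h4 : H ≤ c * 2 ^ K) :
    (∀ a, |band T W Δ a| ≤ 4 * 2 ^ (T + (T + W)) * (c * 2 ^ a)) ∧
    (∀ a, band T W Δ a ≠ 0 → c * 2 ^ a < H) ∧
    ∑ a ∈ range K, |band T W Δ a| ^ p ≤
      (1 + δ) ^ p * ((T + W) * |σ| ^ p) + (1 + 1 / δ) ^ p * ((8 / T) ^ p * T * H ^ p) ∧
    W * |σ| ^ p ≤ (1 + δ) ^ p * ∑ a ∈ range K, |band T W Δ a| ^ p +
      (1 + 1 / δ) ^ p * ((8 / T) ^ p * T * H ^ p) := by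
  have hT' : (0 : ℝ) < T := by exact_mod_cast hT
  have hp0 : 0 < p := by linarith
  have hmono : ∀ {i j : ℕ}, i ≤ j → c * 2 ^ i ≤ c * 2 ^ j := fun h => by
    gcongr; exact one_le_two
  let χ : ℕ → ℝ := fun j => if H ≤ c * 2 ^ j then 1 else 0
  let ε : ℕ → ℝ := fun j => if H ≤ c * 2 ^ j then 0 else Δ j
  have hF : ∀ a, band T W Δ a = σ * band T W χ a + band T W ε a := fun a => by
    have : ∀ j, Δ j = σ * χ j + ε j := fun j => by
      simp only [χ, ε]; split_ifs with h <;> simp [h1 j, *]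
    simp only [band, ← mul_div_assoc, ← add_div, mul_sum, ← sum_add_distrib]
    congr 1
    exact sum_congr rfl fun i _ => by rw [this, this (a + i)]; ring
  have hχ0 : ∀ j, 0 ≤ χ j := fun j => by simp only [χ]; split_ifs <;> norm_num
  have hχ1 : ∀ j, χ j ≤ 1 := fun j => by simp only [χ]; split_ifs <;> norm_num
  have hφ0 : ∀ a, 0 ≤ band T W χ a := fun a => div_nonneg (sum_nonneg fun i _ => by
    simp only [χ]
    split_ifs with a1 a2 a2
    · simp
    · simp
    · exact absurd (a2.trans (hmono (by omega))) a1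
    · simp) hT'.le
  have hφ1 : ∀ a, band T W χ a ≤ 1 := fun a => by
    rw [band, div_le_one hT']
    simpa using sum_le_card_nsmul (range T) _ 1 fun i _ =>
      (show χ (a + i + (T + W)) - χ (a + i) ≤ 1 by linarith [hχ1 (a + i + (T + W)), hχ0 (a + i)])
  have hφs : ∑ a ∈ range K, band T W χ a ≤ T + W := by
    simp only [band, ← sum_div]
    rw [sum_comm, div_le_iff₀ hT', mul_comm]
    have := sum_le_card_nsmul (range T) _ ((T + W : ℕ) * 1 : ℝ) fun i _ =>
      tele_le (fun a => χ (a + i)) (fun _ => hχ0 _) (fun _ => hχ1 _) K (T + W)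
    simpa [add_right_comm _ (T + W), mul_add] using this
  have hε : ∀ s N, ∑ i ∈ range N, |ε (s + i)| ≤ 4 * H := fun s N => by
    have := sum_geom_le ((range N).filter fun i => ¬ H ≤ c * 2 ^ (s + i)) (c := 2 * (c * 2 ^ s))
      (q := 2) (a := 2 * H) (by positivity) one_lt_two (by positivity) fun i hi => by
        have := not_le.1 (mem_filter.1 hi).2
        rw [pow_add] at this
        linarith
    rw [sum_filter] at this
    refine le_trans (sum_le_sum fun i _ => ?_) (this.trans (by linarith))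
    simp only [ε]
    split_ifs
    · simp
    · exact (h2 _).trans (by rw [pow_add]; linarith)
  have hE0 : ∀ a, |band T W ε a| ≤
      (∑ i ∈ range T, (|ε (a + i + (T + W))| + |ε (a + i)|)) / T := fun a => by
    rw [band, abs_div, abs_of_pos hT']
    gcongr
    exact (abs_sum_le_sum_abs _ _).trans (sum_le_sum fun i _ => abs_sub _ _)
  have hE1 : ∀ a, |band T W ε a| ≤ 8 / T * H := fun a => (hE0 a).trans (by
    rw [div_mul_eq_mul_div, sum_add_distrib]
    gcongr
    have := hε (a + (T + W)) T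
    simp only [add_right_comm a (T + W)] at this
    linarith [hε a T])
  have hE2 : ∑ a ∈ range K, |band T W ε a| ≤ 8 * H := by
    refine (sum_le_sum fun a _ => hE0 a).trans ?_
    rw [← sum_div, sum_comm, div_le_iff₀ hT', mul_comm]
    have := sum_le_card_nsmul (range T) (fun i => ∑ a ∈ range K,
        (|ε (a + i + (T + W))| + |ε (a + i)|)) (8 * H) fun i _ => by
      have e1 := hε (i + (T + W)) K
      have e2 := hε i K
      simp only [add_comm (i + (T + W))] at e1
      simp only [add_comm i] at e2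
      rw [sum_add_distrib]
      simp only [add_assoc _ i]
      linarith
    simpa using this
  have hE : ∑ a ∈ range K, |band T W ε a| ^ p ≤ (8 / T) ^ p * T * H ^ p := by
    have e1 : ∀ a, |band T W ε a| ^ p ≤ (8 / T * H) ^ (p - 1) * |band T W ε a| := fun a => by
      conv_lhs => rw [show p = p - 1 + 1 by ring, rpow_add_one' (abs_nonneg _) (by linarith)]
      exact mul_le_mul_of_nonneg_right (rpow_le_rpow (abs_nonneg _) (hE1 a) (by linarith))
        (abs_nonneg _)
    refine (sum_le_sum fun a _ => e1 a).trans ?_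
    rw [← mul_sum, mul_right_comm, ← mul_rpow (by positivity) hH]
    calc _ ≤ (8 / T * H) ^ (p - 1) * (8 / T * H * T) := by
          gcongr; rwa [mul_right_comm, div_mul_cancel₀ _ hT'.ne']
      _ = _ := by
          rw [← mul_assoc, ← rpow_add_one' (by positivity) (by linarith)]
          ring_nf
  refine ⟨fun a => ?_, fun a ha => ?_, ?_, ?_⟩
  · rw [band, abs_div, abs_of_pos hT', div_le_iff₀ hT', mul_comm]
    refine (abs_sum_le_sum_abs _ _).trans ?_
    have := sum_le_card_nsmul (range T) (fun i => |Δ (a + i + (T + W)) - Δ (a + i)|)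
      (4 * 2 ^ (T + (T + W)) * (c * 2 ^ a)) fun i hi => by
        have e1 := hmono (show a + i + (T + W) ≤ a + (T + (T + W)) by have := mem_range.1 hi; omega)
        have e2 := hmono (show a + i ≤ a + (T + (T + W)) by have := mem_range.1 hi; omega)
        rw [pow_add 2 a (T + (T + W))] at e1 e2
        linarith [abs_sub (Δ (a + i + (T + W))) (Δ (a + i)), h2 (a + i + (T + W)), h2 (a + i)]
    simpa using this
  · by_contra hn
    refine ha ?_
    rw [band, sum_eq_zero fun i _ => ?_, zero_div]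
    rw [h1 _ ((not_lt.1 hn).trans (hmono (by omega))),
      h1 _ ((not_lt.1 hn).trans (hmono (by omega))), sub_self]
  · refine (sum_le_sum fun a _ => (hF a).symm ▸ abs_add_rpow_le hp0.le hδ _ _).trans ?_
    rw [sum_add_distrib, ← mul_sum, ← mul_sum]
    gcongr
    refine le_trans (sum_le_sum fun a _ => ?_) ((sum_mul _ _ _).symm.trans_le
      (mul_le_mul_of_nonneg_right hφs (by positivity)))
    rw [abs_mul, mul_rpow (abs_nonneg _) (abs_nonneg _), mul_comm, abs_of_nonneg (hφ0 a)]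
    gcongr
    exact rpow_le_self_of_le_one (hφ0 a) (hφ1 a) hp
  · have e1 : W * |σ| ^ p ≤ ∑ a ∈ range K, |σ * band T W χ a| ^ p := by
      rcases eq_or_ne σ 0 with rfl | hσ
      · simp [hp0.ne']
      classical
      have hex : ∃ j : ℕ, H ≤ c * 2 ^ j := ⟨K, h4⟩
      have e2 : Nat.find hex ≤ K := Nat.find_min' hex h4
      have e3 : T + W < Nat.find hex := by
        by_contra hn
        exact absurd ((Nat.find_spec hex).trans (hmono (not_lt.1 hn))) (not_le.2 (h3 hσ))
      refine le_trans (le_of_eq ?_) (sum_le_sum_of_subset_of_nonneg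
        (s := Ico (Nat.find hex - (T + W)) (Nat.find hex - T)) (fun a ha => ?_)
        fun _ _ _ => by positivity)
      · rw [sum_congr rfl (g := fun _ => |σ| ^ p) fun a ha => ?_]
        · rw [sum_const, Nat.card_Ico, nsmul_eq_mul]
          congr 2
          omega
        · have := mem_Ico.1 ha
          rw [band, sum_congr rfl (g := fun _ => 1) fun i hi => ?_]
          · simp [hT'.ne']
          · have := mem_range.1 hi
            simp only [χ]
            rw [if_pos ((Nat.find_spec hex).trans (hmono (by omega))),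
              if_neg (Nat.find_min hex (by omega)), sub_zero]
      · have := mem_Ico.1 ha
        exact mem_range.2 (by omega)
    refine e1.trans ((sum_le_sum fun a _ => ?_).trans
      (?_ : ∑ a ∈ range K, ((1 + δ) ^ p * |band T W Δ a| ^ p +
        (1 + 1 / δ) ^ p * |band T W ε a| ^ p) ≤ _))
    · have := abs_add_rpow_le hp0.le hδ (band T W Δ a) (-band T W ε a)
      rwa [abs_neg, hF a, add_neg_cancel_right, ← hF a] at this
    · rw [sum_add_distrib, ← mul_sum, ← mul_sum]
      gcongr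

variable {X : Type} [MetricSpace X]

lemma exists_trunc {g h : X → ℝ} (hg : ∀ x y, |g x - g y| ≤ dist x y * (h x + h y)) {l : ℝ}
    (hl : 0 ≤ l) : ∃ u : X → ℝ, (∀ x, h x ≤ l → u x = g x) ∧
      ∀ x y, |u x - u y| ≤ 2 * l * dist x y := by
  have : LipschitzOnWith (Real.toNNReal (2 * l)) g {x | h x ≤ l} :=
    LipschitzOnWith.of_dist_le' fun x hx y hy => by
      have hx' : h x ≤ l := hx
      have hy' : h y ≤ l := hy
      rw [Real.dist_eq]
      nlinarith [hg x y, dist_nonneg (x := x) (y := y)]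
  obtain ⟨u, hu, he⟩ := this.extend_real
  refine ⟨u, fun x hx => (he hx).symm, fun x y => ?_⟩
  have := hu.dist_le_mul x y
  rwa [Real.dist_eq, Real.coe_toNNReal _ (by positivity)] at this

set_option maxHeartbeats 1600000 in
theorem core {p D : ℝ} (hp : 1 ≤ p) (hD : 1 < D) :
    ∃ C > 0, ∀ (X : Type) [MetricSpace X] [Fintype X] (Ω : Type) [Fintype Ω] (g : Ω → X → ℝ),
      (∀ x y, dist x y ^ p = ∑ ω, |g ω x - g ω y| ^ p) → ∀ Λ ≥ 1, Haj p (Λ ^ p) g →
      ∃ d : ℕ, d ≤ C * LL X ^ (p + 1) * exp (C * Λ) ∧ ∃ f : X → Fin d → ℝ, ∃ s > 0, ∀ x y,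
        s * dist x y ^ p ≤ ∑ j, |f x j - f y j| ^ p ∧
        ∑ j, |f x j - f y j| ^ p ≤ D ^ p * s * dist x y ^ p := by
  have hp0 : 0 < p := by linarith
  have hDp : 1 < D ^ p := one_lt_rpow hD hp0
  obtain ⟨t, ht0, ht1, ht⟩ : ∃ t : ℝ, 0 < t ∧ t < 1 / 4 ∧ (1 + 2 * t) * (exp (t * exp p) *
      ((1 + t) ^ p * (1 + t) ^ p * (1 + t))) + t < D ^ p * ((1 - 2 * t) * (1 - t)) := by
    have h1 : ContinuousAt (fun t : ℝ => (1 + t) ^ p) 0 :=
      (continuousAt_const.add continuousAt_id).rpow_const (Or.inr hp0.le)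
    have h2 : ∀ᶠ t : ℝ in nhds 0, (1 + 2 * t) * (exp (t * exp p) *
      ((1 + t) ^ p * (1 + t) ^ p * (1 + t))) + t < D ^ p * ((1 - 2 * t) * (1 - t)) :=
      ContinuousAt.eventually_lt (by fun_prop) (by fun_prop) (by simpa using hDp)
    have h3 : ∀ᶠ t in nhdsWithin (0 : ℝ) (Set.Ioi 0), t ∈ Set.Ioi (0 : ℝ) := self_mem_nhdsWithin
    have h4 : ∀ᶠ t : ℝ in nhds 0, t < 1 / 4 := gt_mem_nhds (by norm_num)
    obtain ⟨t, a, b, c⟩ := (h3.and ((h4.and h2).filter_mono nhdsWithin_le_nhds)).exists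
    exact ⟨t, a, b, c⟩
  set c₀ := (1 + 1 / t) ^ p * (8 ^ p * 2) with hc₀
  have hc₀0 : 0 < c₀ := by positivity
  obtain ⟨m, hm⟩ := exists_nat_ge ((1 + 3 * c₀) / t)
  rw [div_le_iff₀ ht0] at hm
  have hm0 : (0 : ℝ) ≤ m := Nat.cast_nonneg m
  have hm1 : 1 ≤ m - c₀ := by nlinarith
  have hτ : 1 ≤ (1 + t) ^ p := one_le_rpow (by linarith) hp0.le
  set Lo := (m - c₀) / (1 + t) ^ p with hLo
  have hLo0 : 0 < Lo := div_pos (by linarith) (by linarith)
  set U := (1 + t) ^ p * (1 + t) ^ p * (1 + t) * Lo with hU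
  have hU' : (1 + t) ^ p * (1 + m) + c₀ ≤ U := by
    have : U = (1 + t) ^ p * ((1 + t) * (m - c₀)) := by rw [hU, hLo]; field_simp
    have h2 : 1 + m + c₀ ≤ (1 + t) * (m - c₀) := by nlinarith
    rw [this]
    nlinarith [mul_le_mul_of_nonneg_left h2 (zero_le_one.trans hτ)]
  set c₁ := 4 + |log (2 * D ^ p / t)| with hc₁
  have hc₁0 : 0 < c₁ := by positivity
  refine ⟨max ((c₁ * 4) ^ p * 8 / (t ^ 3 * ((1 - t) * Lo)) + 2) (p * (2 * (m + 2) + 1)),
    lt_max_of_lt_right (by positivity), fun X _ _ Ω _ g hd Λ hΛ ⟨h, h0, h1, h2⟩ => ?_⟩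
  classical
  have hL := one_le_LL X
  have hΛp : 0 < Λ ^ p := by positivity
  obtain ⟨T, hT⟩ : ∃ T : ℕ, T = ⌈Λ⌉₊ := ⟨_, rfl⟩
  have hT1 : Λ ≤ T := hT ▸ Nat.le_ceil Λ
  have hT2 : (T : ℝ) ≤ 2 * Λ := by
    have := Nat.ceil_lt_add_one (show 0 ≤ Λ by linarith)
    rw [hT]; linarith
  have hT' : (0 : ℝ) < T := by linarith
  have hT0 : 0 < T := by exact_mod_cast hT'
  obtain ⟨c', hc', hcb⟩ := exists_base fun t : Ω × X => h t.1 t.2
  set c := c' / 2 ^ (T + m * T + 1) with hc
  have hc0 : 0 < c := by positivity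
  obtain ⟨K, hK⟩ := exists_top (fun t : Ω × X => h t.1 t.2) hc0
  choose u hu1 hu2 using fun (ω : Ω) (j : ℕ) =>
    exists_trunc (h1 ω) (show 0 ≤ c * 2 ^ j by positivity)
  let E := {e : X × X // e.1 ≠ e.2}
  have hdE : ∀ e : E, 0 < dist e.1.1 e.1.2 := fun e => dist_pos.2 e.2
  let Δ : E → Ω → ℕ → ℝ := fun e ω j => (u ω j e.1.1 - u ω j e.1.2) / dist e.1.1 e.1.2
  have hb := fun (e : E) (ω : Ω) => band_spec (σ := (g ω e.1.1 - g ω e.1.2) / dist e.1.1 e.1.2)
    (H := max (h ω e.1.1) (h ω e.1.2)) hp ht0 hc0 (le_max_of_le_left (h0 _ _)) hT0 (m * T) K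
    (Δ := Δ e ω) (fun j hj => by
      simp only [Δ]
      rw [hu1 _ _ _ ((le_max_left _ _).trans hj), hu1 _ _ _ ((le_max_right _ _).trans hj)])
    (fun j => by
      simp only [Δ]
      rw [abs_div, abs_of_pos (hdE e), div_le_iff₀ (hdE e)]
      exact hu2 _ _ _ _)
    (fun hσ => by
      have e1 : c * 2 ^ (T + m * T) < c' := by
        rw [hc, pow_succ, div_mul_eq_mul_div, div_lt_iff₀ (by positivity)]
        gcongr
        linarith [show (0 : ℝ) < 2 ^ (T + m * T) by positivity]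
      refine e1.trans_le ?_
      by_cases a : 0 < h ω e.1.1
      · exact le_max_of_le_left (hcb (ω, _) a)
      by_cases b : 0 < h ω e.1.2
      · exact le_max_of_le_right (hcb (ω, _) b)
      have := h1 ω e.1.1 e.1.2
      rw [le_antisymm (not_lt.1 a) (h0 _ _), le_antisymm (not_lt.1 b) (h0 _ _), add_zero, mul_zero,
        abs_nonpos_iff] at this
      simp [this] at hσ)
    (max_le (hK (ω, _)) (hK (ω, _)))
  have hHs : ∀ e : E, ∑ ω, max (h ω e.1.1) (h ω e.1.2) ^ p ≤ 2 * Λ ^ p := fun e => by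
    have : ∑ ω, max (h ω e.1.1) (h ω e.1.2) ^ p ≤ ∑ ω, (h ω e.1.1 ^ p + h ω e.1.2 ^ p) :=
      sum_le_sum fun ω _ => by
        have := rpow_nonneg (h0 ω e.1.1) p
        have := rpow_nonneg (h0 ω e.1.2) p
        rcases max_choice (h ω e.1.1) (h ω e.1.2) with a | a <;> rw [a] <;> linarith
    rw [sum_add_distrib] at this
    linarith [h2 e.1.1, h2 e.1.2]
  have hσs : ∀ e : E, ∑ ω, |(g ω e.1.1 - g ω e.1.2) / dist e.1.1 e.1.2| ^ p = 1 := fun e => by
    rw [sum_div_rpow hd (hdE e), div_self (hdE e).ne', one_rpow]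
  have herr : ∀ e : E, ∑ ω, (1 + 1 / t) ^ p *
      ((8 / T) ^ p * T * max (h ω e.1.1) (h ω e.1.2) ^ p) ≤ c₀ * T := fun e => by
    rw [← mul_sum, ← mul_sum, hc₀, mul_assoc _ (8 ^ p * 2), div_rpow (by norm_num) hT'.le]
    refine mul_le_mul_of_nonneg_left ?_ (by positivity)
    have : Λ ^ p ≤ (T : ℝ) ^ p := rpow_le_rpow (by linarith) hT1 hp0.le
    calc _ ≤ 8 ^ p / (T : ℝ) ^ p * T * (2 * (T : ℝ) ^ p) := by
          gcongr; exact (hHs e).trans (by linarith)
      _ = _ := by field_simp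
  set θ := t / (4 * Λ ^ p) with hθ
  have hθ0 : 0 < θ := by positivity
  have hq : ∀ (e : E) ω a, band T (m * T) (Δ e ω) a ≠ 0 →
      min 1 (θ * (c * 2 ^ a) ^ p) = θ * (c * 2 ^ a) ^ p := fun e ω a ha => by
    refine min_eq_right ?_
    have e1 := rpow_le_rpow (by positivity) ((hb e ω).2.1 a ha).le hp0.le
    have e2 := (single_le_sum (f := fun ω => max (h ω e.1.1) (h ω e.1.2) ^ p)
      (fun ω _ => rpow_nonneg (le_max_of_le_left (h0 _ _)) _) (mem_univ ω)).trans (hHs e)
    rw [hθ, div_mul_eq_mul_div, div_le_one (by positivity)]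
    nlinarith [show 0 ≤ (c * 2 ^ a) ^ p by positivity]
  have hM : ∀ e : E, ∑ i : Ω × Fin K, min 1 (θ * (c * 2 ^ (i.2 : ℕ)) ^ p) *
      |band T (m * T) (Δ e i.1) i.2 / (c * 2 ^ (i.2 : ℕ))| ^ p =
      θ * ∑ ω, ∑ a ∈ range K, |band T (m * T) (Δ e ω) a| ^ p := fun e => by
    rw [Fintype.sum_prod_type, mul_sum]
    refine sum_congr rfl fun ω _ => ?_
    rw [mul_sum, ← Fin.sum_univ_eq_sum_range (fun a => θ * |band T (m * T) (Δ e ω) a| ^ p)]
    refine sum_congr rfl fun a _ => ?_
    by_cases ha : band T (m * T) (Δ e ω) a = 0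
    · simp [ha, hp0.ne']
    · rw [hq e ω a ha, abs_div, abs_of_pos (show 0 < c * 2 ^ (a : ℕ) by positivity),
        div_rpow (abs_nonneg _) (by positivity)]
      field_simp
  have hcard : (Fintype.card E : ℝ) ≤ Fintype.card X ^ 2 := by
    have := Fintype.card_subtype_le fun e : X × X => e.1 ≠ e.2
    rw [Fintype.card_prod] at this
    rw [sq]
    exact_mod_cast this
  have hcard' : (Fintype.card E : ℝ) ≤ exp (2 * LL X - 2) := by
    rcases Nat.eq_zero_or_pos (Fintype.card X) with h | h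
    · rw [h] at hcard; exact hcard.trans (by simpa using (exp_pos _).le)
    refine hcard.trans (le_of_eq ?_)
    rw [LL, show 2 * (1 + log (Fintype.card X)) - 2 = (2 : ℕ) * log (Fintype.card X) by
      push_cast; ring, exp_nat_mul, exp_log (by exact_mod_cast h)]
  have hlog : log (4 * Fintype.card E) ≤ 2 * LL X := by
    rcases Nat.eq_zero_or_pos (Fintype.card E) with h | h
    · rw [h]; simp; linarith
    rw [log_le_iff_le_exp (by positivity), show 2 * LL X = 1 + 1 + (2 * LL X - 2) by ring,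
      exp_add, exp_add]
    have := add_one_le_exp (1 : ℝ)
    gcongr
    nlinarith
  obtain ⟨r, hr⟩ : ∃ r : ℕ, r = ⌈2 * LL X + |log (2 * D ^ p / t)|⌉₊ := ⟨_, rfl⟩
  have hr1 : 2 * LL X + |log (2 * D ^ p / t)| ≤ r := hr ▸ Nat.le_ceil _
  have hr2 : (r : ℝ) ≤ c₁ * LL X := by
    have := Nat.ceil_lt_add_one (show 0 ≤ 2 * LL X + |log (2 * D ^ p / t)| by positivity)
    rw [hr, hc₁]
    nlinarith [abs_nonneg (log (2 * D ^ p / t))]
  have hr0 : (1 : ℝ) ≤ r := by linarith [abs_nonneg (log (2 * D ^ p / t))]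
  set B : ℝ := 4 * 2 ^ (T + (T + m * T)) with hB
  have ha0 : 0 < (1 - t) * (θ * T * Lo) := mul_pos (by linarith) (by positivity)
  have hfin : (1 + 2 * t) * (exp (t * exp p) * (θ * T * U)) + t * ((1 - t) * (θ * T * Lo)) ≤
      D ^ p * ((1 - 2 * t) * ((1 - t) * (θ * T * Lo))) := by
    have e1 : 0 < θ * T * Lo := by positivity
    have e2 := mul_le_mul_of_nonneg_right ht.le e1.le
    rw [hU]
    nlinarith [mul_pos ht0 (mul_pos ht0 e1)]
  obtain ⟨d, hd'⟩ : ∃ d : ℕ, d = ⌈(r * B) ^ p * (2 * LL X) /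
    (t ^ 2 * ((1 - t) * (θ * T * Lo)))⌉₊ + 1 := ⟨_, rfl⟩
  have hd0 : 0 < d := by omega
  obtain ⟨ξ, hξ⟩ := sample (I := Ω × Fin K) (E := E) (fun i => min 1 (θ * (c * 2 ^ (i.2 : ℕ)) ^ p))
    (fun i => by positivity) (fun i => min_le_left _ _)
    (fun e i => band T (m * T) (Δ e i.1) i.2 / (c * 2 ^ (i.2 : ℕ))) (B := B) (κ := t)
    (μ₀ := θ * T * Lo) (μ₁ := θ * T * U) (t := t) hp (by positivity)
    (fun e i => by
      rw [abs_div, abs_of_pos (show 0 < c * 2 ^ (i.2 : ℕ) by positivity),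
        div_le_iff₀ (by positivity)]
      exact (hb e i.1).1 _)
    (by linarith)
    (fun e => by
      rw [sum_filter, Fintype.sum_prod_type]
      have e1 : θ * (2 * (2 * Λ ^ p)) = t := by rw [hθ]; field_simp; norm_num
      refine le_trans (sum_le_sum (g := fun ω => θ * (2 * max (h ω e.1.1) (h ω e.1.2) ^ p))
        fun ω _ => ?_) ?_
      · have hq2 : (2 : ℝ) ≤ 2 ^ p := by
          simpa using rpow_le_rpow_of_exponent_le one_le_two hp
        have e2 : ∀ j : ℕ, (c * 2 ^ j) ^ p = c ^ p * (2 ^ p) ^ j := fun j => by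
          rw [mul_rpow hc0.le (by positivity), ← rpow_natCast, ← rpow_mul zero_le_two,
            mul_comm (j : ℝ), rpow_mul zero_le_two, rpow_natCast]
        have hH := rpow_nonneg (le_max_of_le_left (h0 ω e.1.1) : 0 ≤ max _ (h ω e.1.2)) p
        have e3 := sum_geom_le ((range K).filter fun a => band T (m * T) (Δ e ω) a ≠ 0)
          (c := c ^ p) (q := 2 ^ p) (by positivity) (by linarith) hH fun a ha => by
            rw [← e2]
            exact rpow_le_rpow (by positivity) ((hb e ω).2.1 a (mem_filter.1 ha).2).le hp0.le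
        have e4 : (2 : ℝ) ^ p / (2 ^ p - 1) ≤ 2 := by rw [div_le_iff₀ (by linarith)]; linarith
        refine le_trans (le_of_eq ?_) (mul_le_mul_of_nonneg_left
          (e3.trans ((mul_le_mul_of_nonneg_left e4 hH).trans (le_of_eq (mul_comm _ _)))) hθ0.le)
        rw [sum_filter, mul_sum, ← Fin.sum_univ_eq_sum_range (fun a => θ *
          if band T (m * T) (Δ e ω) a ≠ 0 then c ^ p * (2 ^ p) ^ a else 0)]
        refine sum_congr rfl fun a _ => ?_
        by_cases ha : band T (m * T) (Δ e ω) a = 0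
        · simp [ha]
        · rw [if_pos (div_ne_zero ha (by positivity)), if_pos ha, hq e ω a ha, e2]
      · rw [← mul_sum, ← mul_sum, ← e1]
        gcongr
        exact hHs e)
    (by positivity)
    (fun e => by
      rw [hM, mul_assoc]
      gcongr
      have e1 := sum_le_sum fun ω (_ : ω ∈ univ) => (hb e ω).2.2.2
      rw [← mul_sum, hσs, sum_add_distrib, ← mul_sum] at e1
      rw [hLo, ← mul_div_assoc, div_le_iff₀ (by positivity)]
      push_cast at e1
      linarith [herr e])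
    (fun e => by
      rw [hM, mul_assoc]
      gcongr
      have e1 := sum_le_sum fun ω (_ : ω ∈ univ) => (hb e ω).2.2.1
      rw [sum_add_distrib, ← mul_sum, ← mul_sum, hσs] at e1
      push_cast at e1
      nlinarith [herr e, mul_le_mul_of_nonneg_left hU' hT'.le])
    ht0 (by linarith) (r := r) (by exact_mod_cast hr0)
    (by
      have e1 : exp (t * exp p) * (θ * T * U) ≤ D ^ p * ((1 - t) * (θ * T * Lo)) := by
        have : 0 ≤ exp (t * exp p) * (θ * T * U) := by positivity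
        nlinarith [mul_pos ht0 ha0, mul_pos (mul_pos ht0 ha0) (show 0 < D ^ p by linarith)]
      have e2 : Fintype.card E * exp (-r) ≤ (2 * D ^ p / t)⁻¹ := by
        rw [← exp_log (show 0 < 2 * D ^ p / t by positivity), ← exp_neg]
        refine (mul_le_mul_of_nonneg_right hcard' (exp_pos _).le).trans ?_
        rw [← exp_add, exp_le_exp]
        linarith [le_abs_self (log (2 * D ^ p / t))]
      calc _ = 2 * (Fintype.card E * exp (-r)) * (exp (t * exp p) * (θ * T * U)) := by ring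
        _ ≤ 2 * (2 * D ^ p / t)⁻¹ * (D ^ p * ((1 - t) * (θ * T * Lo))) := by gcongr
        _ = _ := by field_simp)
    hd0 (by
      rw [hd']
      push_cast
      refine le_trans ?_ ((Nat.le_ceil _).trans (le_add_of_nonneg_right zero_le_one))
      gcongr)
  have hdr : (0 : ℝ) < d := by exact_mod_cast hd0
  refine ⟨d, ?_, fun x j => ∑ i : Ω × Fin K, if ξ j i then
      band T (m * T) (fun a => u i.1 a x) i.2 / (c * 2 ^ (i.2 : ℕ)) else 0,
    (1 - 2 * t) * ((1 - t) * (θ * T * Lo)) * d, mul_pos (mul_pos (by linarith) ha0) hdr,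
    fun x y => ?_⟩
  · have e0 := Nat.ceil_lt_add_one (show 0 ≤ (r * B) ^ p * (2 * LL X) /
      (t ^ 2 * ((1 - t) * (θ * T * Lo))) by positivity)
    have e1 : B * Λ ≤ 4 * exp ((2 * (m + 2) + 1) * Λ) := by
      rw [hB, add_mul, exp_add, mul_assoc, one_mul]
      gcongr
      · calc (2 : ℝ) ^ (T + (T + m * T)) ≤ exp 1 ^ (T + (T + m * T)) := by
              gcongr; linarith [add_one_le_exp (1 : ℝ)]
          _ ≤ _ := by
              rw [← exp_nat_mul, exp_le_exp]
              push_cast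
              nlinarith
      · linarith [add_one_le_exp Λ]
    have e2 : (r * B) ^ p * Λ ^ p ≤ (c₁ * 4) ^ p * LL X ^ p * exp (p * (2 * (m + 2) + 1) * Λ) := by
      rw [mul_assoc p, mul_comm p, exp_mul, ← mul_rpow (by positivity) (by positivity),
        ← mul_rpow (by positivity) (by positivity), ← mul_rpow (by positivity) (by positivity)]
      refine rpow_le_rpow (by positivity) ?_ hp0.le
      calc _ = r * (B * Λ) := by ring
        _ ≤ (c₁ * LL X) * (4 * exp ((2 * (m + 2) + 1) * Λ)) := by gcongr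
        _ = _ := by ring
    have e3 : (r * B) ^ p * (2 * LL X) / (t ^ 2 * ((1 - t) * (θ * T * Lo))) ≤
        (c₁ * 4) ^ p * 8 / (t ^ 3 * ((1 - t) * Lo)) *
          (LL X ^ (p + 1) * exp (p * (2 * (m + 2) + 1) * Λ)) := by
      have : 0 < 1 - t := by linarith
      calc _ = (r * B) ^ p * Λ ^ p * (8 * LL X) / (t ^ 3 * ((1 - t) * Lo)) / T := by
            rw [hθ]; field_simp; ring
        _ ≤ (r * B) ^ p * Λ ^ p * (8 * LL X) / (t ^ 3 * ((1 - t) * Lo)) :=
            div_le_self (by positivity) (by linarith)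
        _ ≤ (c₁ * 4) ^ p * LL X ^ p * exp (p * (2 * (m + 2) + 1) * Λ) * (8 * LL X) /
            (t ^ 3 * ((1 - t) * Lo)) := by gcongr
        _ = _ := by rw [rpow_add_one (by linarith)]; ring
    have e4 : 1 ≤ LL X ^ (p + 1) * exp (p * (2 * (m + 2) + 1) * Λ) :=
      one_le_mul_of_one_le_of_one_le (one_le_rpow hL (by linarith)) (one_le_exp (by positivity))
    calc (d : ℝ) ≤ ((c₁ * 4) ^ p * 8 / (t ^ 3 * ((1 - t) * Lo)) + 2) *
          (LL X ^ (p + 1) * exp (p * (2 * (m + 2) + 1) * Λ)) := by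
          rw [hd']; push_cast; linarith
      _ ≤ _ := by
          rw [mul_assoc (max _ _)]
          gcongr
          · exact le_max_left _ _
          · exact le_max_right _ _
  · rcases eq_or_ne x y with rfl | hxy
    · simp [hp0.ne']
    have hxy' := dist_pos.2 hxy
    have e1 : ∀ j, |(∑ i : Ω × Fin K, if ξ j i then
        band T (m * T) (fun a => u i.1 a x) i.2 / (c * 2 ^ (i.2 : ℕ)) else 0) -
        ∑ i : Ω × Fin K, if ξ j i then
        band T (m * T) (fun a => u i.1 a y) i.2 / (c * 2 ^ (i.2 : ℕ)) else 0| ^ p =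
        |∑ i : Ω × Fin K, if ξ j i then band T (m * T) (Δ ⟨(x, y), hxy⟩ i.1) i.2 /
          (c * 2 ^ (i.2 : ℕ)) else 0| ^ p * dist x y ^ p := fun j => by
      rw [← mul_rpow (abs_nonneg _) dist_nonneg, ← abs_of_pos hxy', ← abs_mul, sum_mul,
        ← sum_sub_distrib]
      congr 2
      refine sum_congr rfl fun i _ => ?_
      split_ifs
      · simp only [band, Δ, ← sub_div, ← sum_div]
        rw [← sum_sub_distrib]
        have : ∀ a b c d : ℝ, a - b - (c - d) = a - c - (b - d) := fun _ _ _ _ => by ring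
        simp only [this (u i.1 _ x) (u i.1 _ x)]
        field_simp
      · simp
    simp only [e1, ← sum_mul]
    have e2 := hξ ⟨(x, y), hxy⟩
    constructor
    · gcongr
      exact e2.1
    · gcongr
      refine e2.2.trans ?_
      rw [← mul_assoc (D ^ p)]
      exact mul_le_mul_of_nonneg_right hfin hdr.le

end Vale.Agent.P249
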