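import Mathlib

/-! Overlap kernels of weighted set families. -/

namespace Vale.Agent.P249

open Finset Real

variable {X : Type} [Fintype X] [DecidableEq X]

/-- `k x y` is the total weight of the sets containing both `x` and `y`. -/
def IsCP (k : X → X → ℝ) : Prop :=
  ∃ μ : Finset X → ℝ, (∀ S, 0 ≤ μ S) ∧ ∀ x y, k x y = ∑ S, if x ∈ S ∧ y ∈ S then μ S else 0

lemma IsCP.of_index {J : Type*} [Fintype J] (μ : J → ℝ) (S : J → Finset X) (hμ : ∀ j, 0 ≤ μ j) :
    IsCP fun x y => ∑ j, if x ∈ S j ∧ y ∈ S j then μ j else 0 := by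
  refine ⟨fun T => ∑ j with S j = T, μ j, fun T => sum_nonneg fun j _ => hμ j, fun x y => ?_⟩
  beta_reduce
  rw [← sum_fiberwise univ S]
  refine sum_congr rfl fun T _ => ?_
  split_ifs with h
  · exact sum_congr rfl fun j hj => by rw [(mem_filter.1 hj).2, if_pos h]
  · exact sum_eq_zero fun j hj => by rw [(mem_filter.1 hj).2, if_neg h]

lemma IsCP.sum {J : Type*} [Fintype J] {k : J → X → X → ℝ} (h : ∀ j, IsCP (k j)) :
    IsCP fun x y => ∑ j, k j x y := by
  choose μ h0 h1 using h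
  refine ⟨fun T => ∑ j, μ j T, fun T => sum_nonneg fun j _ => h0 j T, fun x y => ?_⟩
  simp only [h1]
  rw [sum_comm]
  refine sum_congr rfl fun T _ => ?_
  split_ifs <;> simp

lemma IsCP.add {k k' : X → X → ℝ} (h : IsCP k) (h' : IsCP k') :
    IsCP fun x y => k x y + k' x y := by
  have := IsCP.sum (J := Bool) (k := fun b => if b then k else k') (by rintro (_ | _) <;> simpa)
  simpa using this

lemma IsCP.mul {k k' : X → X → ℝ} (h : IsCP k) (h' : IsCP k') :
    IsCP fun x y => k x y * k' x y := by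
  obtain ⟨μ, h0, h1⟩ := h
  obtain ⟨μ', h0', h1'⟩ := h'
  have := IsCP.of_index (J := Finset X × Finset X) (fun j => μ j.1 * μ' j.2)
    (fun j => j.1 ∩ j.2) fun j => mul_nonneg (h0 _) (h0' _)
  convert this using 3 with x y
  rw [h1, h1', sum_mul_sum, Fintype.sum_prod_type]
  refine sum_congr rfl fun S _ => sum_congr rfl fun T _ => ?_
  simp only [mem_inter]
  by_cases a : x ∈ S <;> by_cases b : y ∈ S <;> by_cases c : x ∈ T <;> by_cases d : y ∈ T <;>
    simp [a, b, c, d]

lemma isCP_min (a : X → ℝ) (ha : ∀ x, 0 ≤ a x) : IsCP fun x y => min (a x) (a y) := by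
  induction' h : (univ.filter fun x => a x ≠ 0).card using Nat.strong_induction_on with n ih
    generalizing a
  rcases (univ.filter fun x => a x ≠ 0).eq_empty_or_nonempty with he | hne
  · refine ⟨0, fun _ => le_rfl, fun x y => ?_⟩
    have : ∀ x, a x = 0 := fun x => by
      by_contra h0
      have : x ∈ univ.filter fun x => a x ≠ 0 := by simp [h0]
      rw [he] at this
      simp at this
    simp [this]
  · obtain ⟨x0, hx0, hmin⟩ := exists_min_image _ a hne
    simp only [mem_filter, mem_univ, true_and] at hx0 hmin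
    have h1 := ih _ (by
      rw [← h]
      refine card_lt_card ⟨fun x hx => ?_, fun hs => ?_⟩
      · simp only [mem_filter, mem_univ, true_and] at hx ⊢
        intro h0
        exact hx (if_pos h0)
      · have := hs (show x0 ∈ univ.filter fun x => a x ≠ 0 by simp [hx0])
        simp [hx0] at this) (fun x => if a x = 0 then 0 else a x - a x0) (fun x => by
      split_ifs with h0
      · exact le_rfl
      · exact sub_nonneg.2 (hmin x h0)) rfl
    have h2 := IsCP.of_index (J := Unit) (fun _ => a x0) (fun _ => univ.filter fun x => a x ≠ 0)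
      fun _ => ha x0
    convert h1.add h2 using 3 with x y
    have hx := hmin x
    have hy := hmin y
    have := ha x
    have := ha y
    by_cases a1 : a x = 0 <;> by_cases a2 : a y = 0
    · simp [a1, a2]
    · simp [a1, a2, ha y, hy a2]
    · simp [a1, a2, ha x, hx a1]
    · simp [a1, a2, min_sub_sub_right]

lemma one_sub_sum_le_prod {ι : Type*} (s : Finset ι) {a b : ι → ℝ} (h0 : ∀ i ∈ s, 0 ≤ a i)
    (h1 : ∀ i ∈ s, 1 - a i ≤ b i) (h2 : ∀ i ∈ s, 0 ≤ b i) :
    1 - ∑ i ∈ s, a i ≤ ∏ i ∈ s, b i := by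
  classical
  induction s using Finset.induction_on with
  | empty => simp
  | insert j s hj ih =>
    rw [sum_insert hj, prod_insert hj]
    have ih' := ih (fun i hi => h0 i (mem_insert_of_mem hi))
      (fun i hi => h1 i (mem_insert_of_mem hi)) fun i hi => h2 i (mem_insert_of_mem hi)
    have e0 := h0 j (mem_insert_self _ _)
    have e1 := h1 j (mem_insert_self _ _)
    have e2 := h2 j (mem_insert_self _ _)
    have e3 : 0 ≤ ∑ i ∈ s, a i := sum_nonneg fun i hi => h0 i (mem_insert_of_mem hi)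
    have e4 : 0 ≤ ∏ i ∈ s, b i := prod_nonneg fun i hi => h2 i (mem_insert_of_mem hi)
    by_cases h : a j ≤ 1
    · nlinarith [mul_le_mul_of_nonneg_right e1 e4, mul_le_mul_of_nonneg_left ih' (sub_nonneg.2 h)]
    · nlinarith [mul_nonneg e2 e4]

/-- A kernel with Gaussian decay in a Euclidean feature space. -/
lemma exists_gauss {ι : Type} [Fintype ι] (φ : X → ι → ℝ) :
    ∃ k : X → X → ℝ, IsCP k ∧ (∀ x, k x x = 1) ∧ ∀ x y,
      (1 - k x y) ^ 2 ≤ ∑ i, (φ x i - φ y i) ^ 2 ∧
      k x y ≤ exp (-(∑ i, (φ x i - φ y i) ^ 2) / 5) := by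
  classical
  obtain ⟨m, hm⟩ := exists_nat_gt (2 * ∑ x, ∑ i, |φ x i|)
  have hb : ∀ x i, 2 * |φ x i| < m := fun x i => by
    refine lt_of_le_of_lt ?_ hm
    have h1 : |φ x i| ≤ ∑ i, |φ x i| :=
      single_le_sum (f := fun i => |φ x i|) (fun _ _ => abs_nonneg _) (mem_univ i)
    have h2 : ∑ i, |φ x i| ≤ ∑ x, ∑ i, |φ x i| :=
      single_le_sum (f := fun x => ∑ i, |φ x i|)
        (fun _ _ => sum_nonneg fun _ _ => abs_nonneg _) (mem_univ x)
    linarith
  have hm0 : (0 : ℝ) < m := lt_of_le_of_lt (by positivity) hm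
  have hb' : ∀ x i, |φ x i / m| ≤ 1 / 2 := fun x i => by
    rw [abs_div, abs_of_pos hm0, div_le_iff₀ hm0]
    linarith [hb x i]
  let amp : X → ι × Fin (m * m) → Bool → ℝ := fun x j b =>
    if b then cos (π / 4 + φ x j.1 / m) else sin (π / 4 + φ x j.1 / m)
  have hamp : ∀ x j b, 0 ≤ amp x j b := fun x j b => by
    have := abs_le.1 (hb' x j.1)
    have := pi_gt_three
    simp only [amp]
    split_ifs
    · exact cos_nonneg_of_neg_pi_div_two_le_of_le (by linarith) (by linarith)
    · exact sin_nonneg_of_nonneg_of_le_pi (by linarith) (by linarith)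
  let ψ : X → (ι × Fin (m * m) → Bool) → ℝ := fun x u => ∏ j, amp x j (u j)
  have hψ : ∀ x u, 0 ≤ ψ x u := fun x u => prod_nonneg fun j _ => hamp x j _
  have haff : ∀ x y, ∑ u, ψ x u * ψ y u =
      ∏ j : ι × Fin (m * m), cos ((φ x j.1 - φ y j.1) / m) := by
    intro x y
    simp only [ψ, ← prod_mul_distrib]
    rw [← Fintype.piFinset_univ, ← prod_univ_sum (fun _ => univ) fun j b => amp x j b * amp y j b]
    refine prod_congr rfl fun j _ => ?_
    simp only [Fintype.univ_bool, mem_singleton, Bool.true_eq_false, not_false_eq_true,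
      sum_insert, sum_singleton, amp, if_true, Bool.false_eq_true, if_false]
    rw [← cos_sub]
    congr 1
    ring
  have hn : ∀ x, ∑ u, ψ x u ^ 2 = 1 := fun x => by simpa [sq] using haff x x
  have hΔ : ∀ x y i, |(φ x i - φ y i) / m| ≤ 1 := fun x y i => by
    rw [sub_div]
    linarith [abs_sub (φ x i / m) (φ y i / m), hb' x i, hb' y i]
  have hsum : ∀ x y, ∑ j : ι × Fin (m * m), ((φ x j.1 - φ y j.1) / m) ^ 2 =
      ∑ i, (φ x i - φ y i) ^ 2 := fun x y => by
    rw [Fintype.sum_prod_type]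
    refine sum_congr rfl fun i _ => ?_
    simp only [sum_const, card_univ, Fintype.card_fin, nsmul_eq_mul]
    push_cast
    field_simp
  have hcos : ∀ x y i, 0 ≤ cos ((φ x i - φ y i) / m) := fun x y i => by
    have := abs_le.1 (hΔ x y i)
    have := pi_gt_three
    exact cos_nonneg_of_neg_pi_div_two_le_of_le (by linarith) (by linarith)
  refine ⟨fun x y => ∑ u, min (ψ x u ^ 2) (ψ y u ^ 2),
    IsCP.sum fun u => isCP_min _ fun x => sq_nonneg _, fun x => by simpa using hn x,
    fun x y => ⟨?_, ?_⟩⟩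
  · have h1 : 1 - (∑ i, (φ x i - φ y i) ^ 2) / 2 ≤ ∑ u, ψ x u * ψ y u := by
      rw [haff, ← hsum, sum_div]
      exact one_sub_sum_le_prod _ (fun _ _ => by positivity)
        (fun j _ => one_sub_sq_div_two_le_cos) fun j _ => hcos x y _
    have h2 : 2 * (1 - ∑ u, min (ψ x u ^ 2) (ψ y u ^ 2)) =
        ∑ u, |ψ x u - ψ y u| * (ψ x u + ψ y u) := by
      have : ∀ u, |ψ x u - ψ y u| * (ψ x u + ψ y u) =
          ψ x u ^ 2 + ψ y u ^ 2 - 2 * min (ψ x u ^ 2) (ψ y u ^ 2) := fun u => by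
        rcases le_total (ψ x u) (ψ y u) with h | h
        · rw [abs_of_nonpos (sub_nonpos.2 h), min_eq_left (pow_le_pow_left₀ (hψ _ _) h 2)]; ring
        · rw [abs_of_nonneg (sub_nonneg.2 h), min_eq_right (pow_le_pow_left₀ (hψ _ _) h 2)]; ring
      simp only [this, sum_sub_distrib, sum_add_distrib, hn, ← mul_sum]
      ring
    have h3 := sum_mul_sq_le_sq_mul_sq univ (fun u => |ψ x u - ψ y u|) fun u => ψ x u + ψ y u
    have h4 : ∑ u, |ψ x u - ψ y u| ^ 2 = 2 - 2 * ∑ u, ψ x u * ψ y u := by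
      simp only [sq_abs, sub_sq, sum_add_distrib, sum_sub_distrib, hn, mul_assoc, ← mul_sum]
      ring
    have h5 : ∑ u, (ψ x u + ψ y u) ^ 2 = 2 + 2 * ∑ u, ψ x u * ψ y u := by
      simp only [add_sq, sum_add_distrib, hn, mul_assoc, ← mul_sum]
      ring
    rw [← h2, h4, h5] at h3
    nlinarith [sq_nonneg (1 - ∑ u, ψ x u * ψ y u)]
  · have h1 : ∑ u, min (ψ x u ^ 2) (ψ y u ^ 2) ≤ ∑ u, ψ x u * ψ y u := sum_le_sum fun u _ => by
      rcases le_total (ψ x u) (ψ y u) with h | h
      · exact (min_le_left _ _).trans (by nlinarith [hψ x u])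
      · exact (min_le_right _ _).trans (by nlinarith [hψ y u])
    refine h1.trans ?_
    rw [haff, ← hsum, ← sum_neg_distrib, sum_div, exp_sum]
    refine prod_le_prod (fun j _ => hcos x y _) fun j _ => ?_
    have h2 := cos_le_one_sub_mul_cos_sq ((hΔ x y j.1).trans (by linarith [pi_gt_three]))
    have h3 : (1 : ℝ) / 5 ≤ 2 / π ^ 2 := by
      rw [div_le_div_iff₀ (by norm_num) (by positivity)]
      nlinarith [pi_lt_d2, pi_pos]
    have h4 := mul_le_mul_of_nonneg_right h3 (sq_nonneg ((φ x j.1 - φ y j.1) / m))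
    linarith [add_one_le_exp (-((φ x j.1 - φ y j.1) / m) ^ 2 / 5)]

/-- Sums of geometrically separated terms. -/
lemma sum_le_of_sep {ι : Type*} (s : Finset ι) (f : ι → ℝ) {q a : ℝ} (hq : 1 < q) (ha : 0 ≤ a)
    (h1 : ∀ i ∈ s, f i ≤ a) (h2 : ∀ i ∈ s, ∀ j ∈ s, i ≠ j → f i ≤ f j → q * f i ≤ f j) :
    ∑ i ∈ s, f i ≤ a * (q / (q - 1)) := by
  classical
  induction s using Finset.induction_on_max_value f generalizing a with
  | empty => have := sub_pos.2 hq; simp only [sum_empty]; positivity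
  | insert j s hj hmax ih =>
    rw [sum_insert hj]
    have hq0 : 0 < q := by linarith
    have h3 := ih (a := a / q) (by positivity) (fun i hi => by
      rw [le_div_iff₀ hq0, mul_comm]
      exact (h2 i (mem_insert_of_mem hi) j (mem_insert_self _ _) (fun h => hj (h ▸ hi))
        (hmax i hi)).trans (h1 j (mem_insert_self _ _)))
      fun i hi k hk => h2 i (mem_insert_of_mem hi) k (mem_insert_of_mem hk)
    have h4 : a * (q / (q - 1)) = a + a / q * (q / (q - 1)) := by
      have := sub_pos.2 hq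
      field_simp
      ring
    linarith [h1 j (mem_insert_self _ _)]

lemma sum_geom_le (s : Finset ℕ) {c q a : ℝ} (hc : 0 ≤ c) (hq : 1 < q) (ha : 0 ≤ a)
    (h1 : ∀ i ∈ s, c * q ^ i ≤ a) : ∑ i ∈ s, c * q ^ i ≤ a * (q / (q - 1)) := by
  refine sum_le_of_sep s _ hq ha h1 fun i _ j _ hij h => ?_
  rcases hc.eq_or_lt with rfl | hc'
  · simp
  have h' : i ≤ j := (pow_le_pow_iff_right₀ hq).1 (le_of_mul_le_mul_left h hc')
  calc q * (c * q ^ i) = c * q ^ (i + 1) := by ring
    _ ≤ _ := mul_le_mul_of_nonneg_left (pow_le_pow_right₀ hq.le (by omega)) hc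

lemma sum_geom_inv_le (s : Finset ℕ) {c q a : ℝ} (hc : 0 ≤ c) (hq : 1 < q) (ha : 0 ≤ a)
    (h1 : ∀ i ∈ s, c / q ^ i ≤ a) : ∑ i ∈ s, c / q ^ i ≤ a * (q / (q - 1)) := by
  refine sum_le_of_sep s _ hq ha h1 fun i _ j _ hij h => ?_
  rcases hc.eq_or_lt with rfl | hc'
  · simp
  have hq0 : 0 < q := by linarith
  have h' : j ≤ i := (pow_le_pow_iff_right₀ hq).1
    ((div_le_div_iff_of_pos_left hc' (by positivity) (by positivity)).1 h)
  obtain ⟨i, rfl⟩ : ∃ i', i = i' + 1 := ⟨i - 1, by omega⟩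
  calc q * (c / q ^ (i + 1)) = c / q ^ i := by rw [pow_succ]; field_simp
    _ ≤ _ := div_le_div_of_nonneg_left hc (by positivity) (pow_le_pow_right₀ hq.le (by omega))

end Vale.Agent.P249
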