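import Vale.Agent.P249.Small

/-! Pointwise (Hajlasz type) gradients with small `L_p` norm. -/

namespace Vale.Agent.P249

open Finset Real

lemma harmonic_le {α : Type*} (s : Finset α) (f : α → ℝ) :
    ∑ w ∈ s, (1 : ℝ) / (s.filter fun v => f v ≤ f w).card ≤ 1 + log s.card := by
  classical
  induction s using Finset.induction_on_max_value f with
  | empty => simp
  | insert a s ha hmax ih =>
    rw [sum_insert ha, card_insert_of_notMem ha]
    have h1 : (insert a s).filter (fun v => f v ≤ f a) = insert a s :=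
      filter_true_of_mem fun v hv => by
        rcases mem_insert.1 hv with rfl | hv
        exacts [le_rfl, hmax v hv]
    have h2 : ∑ w ∈ s, (1 : ℝ) / ((insert a s).filter fun v => f v ≤ f w).card ≤
        ∑ w ∈ s, (1 : ℝ) / (s.filter fun v => f v ≤ f w).card := sum_le_sum fun w hw => by
      have : 0 < (s.filter fun v => f v ≤ f w).card := card_pos.2 ⟨w, by simp [hw]⟩
      gcongr
      exact subset_insert _ _
    rw [h1, card_insert_of_notMem ha]
    rcases Nat.eq_zero_or_pos s.card with h0 | h0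
    · rw [card_eq_zero.1 h0]; simp
    have h3 : (0 : ℝ) < s.card := by exact_mod_cast h0
    have h4 := log_le_sub_one_of_pos (show (0 : ℝ) < s.card / (s.card + 1) by positivity)
    rw [log_div h3.ne' (by positivity)] at h4
    have h5 : (s.card : ℝ) / (s.card + 1) - 1 = -(1 / (s.card + 1)) := by field_simp; ring
    push_cast
    linarith

lemma tele_le (ℓ : ℕ → ℝ) {M : ℝ} (h0 : ∀ k, 0 ≤ ℓ k) (h1 : ∀ k, ℓ k ≤ M) (K J : ℕ) :
    ∑ k ∈ range K, (ℓ (k + J) - ℓ k) ≤ J * M := by
  have e1 := sum_range_add ℓ K J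
  have e2 := sum_range_add ℓ J K
  rw [add_comm J K] at e2
  have e3 : ∑ i ∈ range J, ℓ (K + i) ≤ J * M := by
    simpa using sum_le_card_nsmul (range J) _ M fun i _ => h1 (K + i)
  have e4 : 0 ≤ ∑ i ∈ range J, ℓ i := sum_nonneg fun i _ => h0 i
  simp only [sum_sub_distrib, add_comm _ J]
  linarith

lemma jensen_sub {α : Type*} [Fintype α] {ν a : α → ℝ} {p : ℝ} (hp : 1 ≤ p) (h0 : ∀ w, 0 ≤ ν w)
    (h1 : ∑ w, ν w ≤ 1) (ha : ∀ w, 0 ≤ a w) : (∑ w, ν w * a w) ^ p ≤ ∑ w, ν w * a w ^ p := by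
  have := rpow_arith_mean_le_arith_mean_rpow univ (fun o : Option α => o.elim (1 - ∑ w, ν w) ν)
    (fun o => o.elim 0 a) (by rintro (_ | i) _; exacts [sub_nonneg.2 h1, h0 i])
    (by simp [Fintype.sum_option]) (by rintro (_ | i) _; exacts [le_rfl, ha i]) hp
  simpa [Fintype.sum_option, zero_rpow (show p ≠ 0 by linarith)] using this

variable {X : Type} [MetricSpace X] [Fintype X] [DecidableEq X] {Ω : Type} [Fintype Ω]

/-- Number of points in a closed ball. -/
noncomputable def nb (x : X) (r : ℝ) : ℝ := (univ.filter fun w => dist x w ≤ r).card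

omit [DecidableEq X] in
lemma one_le_nb (x : X) {r : ℝ} (hr : 0 ≤ r) : 1 ≤ nb x r := by
  unfold nb
  exact_mod_cast card_pos.2 ⟨x, by simp [hr]⟩

omit [DecidableEq X] in
lemma nb_mono (x : X) {r r' : ℝ} (hr : r ≤ r') : nb x r ≤ nb x r' := by
  unfold nb
  exact_mod_cast card_le_card fun w hw => by
    simp only [mem_filter, mem_univ, true_and] at hw ⊢; linarith

omit [DecidableEq X] in
lemma nb_le (x : X) (r : ℝ) : nb x r ≤ Fintype.card X := by
  unfold nb
  exact_mod_cast card_le_univ _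

lemma CF.kernel {p r A : ℝ} (h : CF X p (1 / 10) r A) (hr : 0 < r) :
    ∃ ν : X → X → ℝ, (∀ x w, 0 ≤ ν x w) ∧ (∀ x, ∑ w, ν x w ≤ 1) ∧
      (∀ x w, ν x w ≤ 2 / nb x r * exp (-((dist x w / r) ^ p / A))) ∧
      ∀ (f : X → ℝ) x y, dist x y ≤ r →
        |f x - f y| ≤ 2 * (∑ w, ν x w * |f x - f w| + ∑ w, ν y w * |f y - f w|) := by
  obtain ⟨k, ⟨μ, h0, hμ⟩, h1, h2, h3⟩ := h
  have hone : ∀ x, ∑ S, (if x ∈ S then μ S else 0) = 1 := fun x => by
    simpa [h1] using (hμ x x).symm
  have hdiv : ∀ S : Finset X, 0 ≤ μ S / S.card := fun S => div_nonneg (h0 S) (by positivity)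
  have hbad : ∀ x, ∑ S, (if x ∈ S ∧ ¬ nb x r ≤ 2 * S.card then μ S else 0) ≤ 1 / 5 := by
    intro x
    have hn := one_le_nb x hr.le
    have e1 : ∀ S : Finset X, (if x ∈ S ∧ ¬ nb x r ≤ 2 * S.card then μ S else 0) * nb x r ≤
        2 * ∑ w with dist x w ≤ r, ((if x ∈ S then μ S else 0) -
          if x ∈ S ∧ w ∈ S then μ S else 0) := by
      intro S
      by_cases hx : x ∈ S
      · simp only [hx, true_and, if_true, sum_sub_distrib, sum_const, nsmul_eq_mul, sum_ite_mem]
        have e2 : (((univ.filter fun w => dist x w ≤ r) ∩ S).card : ℝ) ≤ S.card := by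
          exact_mod_cast card_le_card inter_subset_right
        have e3 : (((univ.filter fun w => dist x w ≤ r) ∩ S).card : ℝ) ≤ nb x r := by
          unfold nb; exact_mod_cast card_le_card inter_subset_left
        change _ ≤ 2 * (nb x r * μ S - _)
        split_ifs with h
        · nlinarith [h0 S]
        · nlinarith [h0 S, not_le.1 h]
      · simp [hx]
    have e2 := sum_le_sum fun S (_ : S ∈ univ) => e1 S
    rw [← sum_mul, ← mul_sum, sum_comm] at e2
    have e3 : ∑ w with dist x w ≤ r, ∑ S, ((if x ∈ S then μ S else 0) -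
          if x ∈ S ∧ w ∈ S then μ S else 0) ≤ nb x r * (1 / 10) := by
      unfold nb
      rw [← nsmul_eq_mul]
      refine sum_le_card_nsmul _ _ _ fun w hw => ?_
      rw [sum_sub_distrib, hone, ← hμ]
      linarith [h2 x w (mem_filter.1 hw).2]
    nlinarith
  refine ⟨fun x w => ∑ S, if x ∈ S ∧ nb x r ≤ 2 * S.card ∧ w ∈ S then μ S / S.card else 0,
    fun x w => sum_nonneg fun S _ => by split_ifs; exacts [hdiv S, le_rfl], fun x => ?_,
    fun x w => ?_, fun f x y hxy => ?_⟩
  · rw [sum_comm, ← hone x]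
    refine sum_le_sum fun S _ => ?_
    by_cases hx : x ∈ S
    · have : (S.card : ℝ) ≠ 0 := by exact_mod_cast (card_pos.2 ⟨x, hx⟩).ne'
      by_cases hg : nb x r ≤ 2 * S.card
      · simp only [hx, hg, true_and, sum_ite_mem, univ_inter, sum_const, nsmul_eq_mul, if_true]
        rw [mul_div_cancel₀ _ this]
      · simp [hx, hg, h0 S]
    · simp [hx]
  · have hn := one_le_nb x hr.le
    refine le_trans ?_ (mul_le_mul_of_nonneg_left (h3 x w) (by positivity))
    rw [hμ, mul_sum]
    refine sum_le_sum fun S _ => ?_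
    split_ifs with a b b
    · have : (0 : ℝ) < S.card := by exact_mod_cast card_pos.2 ⟨x, a.1⟩
      rw [div_mul_eq_mul_div, div_le_div_iff₀ this (by linarith)]
      nlinarith [h0 S, a.2.1]
    · exact absurd ⟨a.1, a.2.2⟩ b
    · exact mul_nonneg (by positivity) (h0 S)
    · simp
  · have e1 : 1 / 2 ≤ ∑ S, (if (x ∈ S ∧ nb x r ≤ 2 * S.card) ∧ (y ∈ S ∧ nb y r ≤ 2 * S.card)
        then μ S else 0) := by
      have e2 : k x y ≤ ∑ S, ((if (x ∈ S ∧ nb x r ≤ 2 * S.card) ∧ (y ∈ S ∧ nb y r ≤ 2 * S.card)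
          then μ S else 0) + ((if x ∈ S ∧ ¬ nb x r ≤ 2 * S.card then μ S else 0) +
          if y ∈ S ∧ ¬ nb y r ≤ 2 * S.card then μ S else 0)) := by
        rw [hμ]
        refine sum_le_sum fun S _ => ?_
        by_cases a : x ∈ S <;> by_cases b : y ∈ S <;> by_cases c : nb x r ≤ 2 * S.card <;>
          by_cases d : nb y r ≤ 2 * S.card <;> simp [a, b, c, d, h0 S]
      rw [sum_add_distrib, sum_add_distrib] at e2
      linarith [hbad x, hbad y, h2 x y hxy]
    have e2 := mul_le_mul_of_nonneg_right e1 (abs_nonneg (f x - f y))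
    rw [sum_mul] at e2
    simp only [sum_mul]
    rw [sum_comm, sum_comm (s := univ) (t := univ) (f := fun w S =>
      (if y ∈ S ∧ nb y r ≤ 2 * S.card ∧ w ∈ S then μ S / S.card else 0) * |f y - f w|),
      ← sum_add_distrib]
    refine le_trans (by linarith) (mul_le_mul_of_nonneg_left
      (e2.trans (sum_le_sum fun S _ => ?_)) zero_le_two)
    split_ifs with a
    · have : (S.card : ℝ) ≠ 0 := by exact_mod_cast (card_pos.2 ⟨x, a.1.1⟩).ne'
      simp only [a.1.1, a.1.2, a.2.1, a.2.2, true_and, ite_mul, zero_mul, sum_ite_mem, univ_inter,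
        ← sum_add_distrib, ← mul_add]
      calc μ S * |f x - f y| = ∑ _w ∈ S, μ S / S.card * |f x - f y| := by
            rw [sum_const, nsmul_eq_mul]; field_simp
        _ ≤ _ := sum_le_sum fun w _ => mul_le_mul_of_nonneg_left (by
            rw [abs_sub_comm (f y)]; exact abs_sub_le _ _ _) (hdiv S)
    · rw [zero_mul]
      refine add_nonneg (sum_nonneg fun w _ => mul_nonneg ?_ (abs_nonneg _))
        (sum_nonneg fun w _ => mul_nonneg ?_ (abs_nonneg _))
      all_goals split_ifs; exacts [hdiv S, le_rfl]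

omit [DecidableEq X] in
lemma total_le {p A c : ℝ} (hp : 1 ≤ p) (hA : 1 ≤ A) (hc : 0 < c) {J : ℕ}
    (hJ : 4 * A * LL X ≤ 2 ^ J) (x : X) (ν : ℕ → X → ℝ) (h0 : ∀ k w, 0 ≤ ν k w)
    (h1 : ∀ k, ∑ w, ν k w ≤ 1)
    (h2 : ∀ k w, ν k w ≤ 2 / nb x (c * 2 ^ k) * exp (-((dist x w / (c * 2 ^ k)) ^ p / A))) (K : ℕ) :
    ∑ k ∈ range K, ∑ w, ν k w * (dist x w / (c * 2 ^ k)) ^ p ≤ 8 * A * LL X * (J + 1) := by
  classical
  have hL := one_le_LL X
  have hn : ∀ k : ℕ, 1 ≤ nb x (c * 2 ^ k) := fun k => one_le_nb x (by positivity)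
  have hnear : ∑ k ∈ range K, ∑ w with dist x w ≤ c * 2 ^ k,
      ν k w * (dist x w / (c * 2 ^ k)) ^ p ≤ 4 * LL X := by
    simp only [sum_filter]
    rw [sum_comm]
    have e1 := harmonic_le (univ : Finset X) (dist x)
    refine le_trans (sum_le_sum fun w _ => ?_) ((mul_sum _ _ _).symm.trans_le
      (mul_le_mul_of_nonneg_left e1 (by norm_num)))
    rw [← sum_filter]
    have e2 := sum_geom_inv_le ((range K).filter fun k => dist x w ≤ c * 2 ^ k)
      (c := dist x w / c) (q := 2) (a := 1) (by positivity) one_lt_two zero_le_one fun k hk => by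
        rw [div_div, div_le_one (by positivity)]; exact (mem_filter.1 hk).2
    have e3 := one_le_nb x (dist_nonneg (x := x) (y := w))
    change _ ≤ 4 * (1 / nb x (dist x w))
    refine le_trans (sum_le_sum (g := fun k => 2 / nb x (dist x w) * (dist x w / c / 2 ^ k))
      fun k hk => ?_) ?_
    · have e4 := (mem_filter.1 hk).2
      refine mul_le_mul ((h2 k w).trans ?_) ?_ (by positivity) (by positivity)
      · refine (mul_le_of_le_one_right (by have := hn k; positivity)
          (exp_le_one_iff.2 (neg_nonpos.2 (by positivity)))).trans ?_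
        gcongr
        exact nb_mono x e4
      · rw [div_div]
        exact rpow_le_self_of_le_one (by positivity) ((div_le_one (by positivity)).2 e4) hp
    · rw [← mul_sum]
      refine (mul_le_mul_of_nonneg_left e2 (by positivity)).trans (le_of_eq ?_)
      ring
  have hmid : ∑ k ∈ range K, ∑ w with ¬ dist x w ≤ c * 2 ^ k ∧ dist x w ≤ c * 2 ^ (k + J),
      ν k w * (dist x w / (c * 2 ^ k)) ^ p ≤ 6 * A * (J * LL X) := by
    have e1 := tele_le (fun k => log (nb x (c * 2 ^ k))) (M := LL X)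
      (fun k => log_nonneg (hn k)) (fun k => by
        have := log_le_log (by linarith [hn k]) (nb_le x (c * 2 ^ k))
        unfold LL; linarith) K J
    refine le_trans (sum_le_sum fun k _ => ?_) ((mul_sum _ _ _).symm.trans_le
      (mul_le_mul_of_nonneg_left e1 (by positivity)))
    have hk := hn k
    set s := univ.filter fun w => ¬ dist x w ≤ c * 2 ^ k ∧ dist x w ≤ c * 2 ^ (k + J) with hs
    have e2 : (s.card : ℝ) + nb x (c * 2 ^ k) ≤ nb x (c * 2 ^ (k + J)) := by
      unfold nb
      rw [← Nat.cast_add, ← card_union_of_disjoint (by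
        rw [disjoint_left]; intro w h h'; exact (mem_filter.1 h).2.1 (mem_filter.1 h').2)]
      refine Nat.cast_le.2 (card_le_card (union_subset (fun w hw => ?_) fun w hw => ?_))
      · simpa using (mem_filter.1 hw).2.2
      · have : c * 2 ^ k ≤ c * 2 ^ (k + J) := by gcongr; exacts [one_le_two, by omega]
        simpa using (mem_filter.1 hw).2.trans this
    set Z := s.card * (2 / nb x (c * 2 ^ k)) with hZ
    have hZ0 : 0 ≤ Z := by positivity
    have hl : 0 ≤ log (1 + Z) := log_nonneg (by linarith)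
    have e3 := sum_le_sum fun w (_ : w ∈ s) =>
      tail_le (t := 2 * log (1 + Z)) (h0 k w) (by positivity) (by linarith) (h2 k w)
    rw [sum_add_distrib, ← sum_mul, sum_const, nsmul_eq_mul, ← mul_assoc (s.card : ℝ), ← hZ,
      mul_div_cancel_left₀ _ two_ne_zero, exp_neg, exp_log (by linarith)] at e3
    simp only [← mul_div_assoc, ← sum_div] at e3
    rw [div_le_iff₀ (by linarith)] at e3
    have e4 : ∑ w ∈ s, ν k w ≤ 1 :=
      (sum_le_sum_of_subset_of_nonneg (subset_univ _) fun w _ _ => h0 k w).trans (h1 k)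
    have e5 : Z * (1 + Z)⁻¹ ≤ log (1 + Z) := by
      have := one_sub_inv_le_log_of_pos (show 0 < 1 + Z by linarith)
      have e : Z * (1 + Z)⁻¹ = 1 - (1 + Z)⁻¹ := by field_simp; ring
      linarith
    have e6 : log (1 + Z) ≤ 2 * (log (nb x (c * 2 ^ (k + J))) - log (nb x (c * 2 ^ k))) := by
      rw [← log_div (by linarith [hn (k + J)]) (by linarith), ← Nat.cast_two (R := ℝ), ← log_pow]
      refine log_le_log (by linarith) ?_
      have e7 : s.card / nb x (c * 2 ^ k) + 1 ≤ nb x (c * 2 ^ (k + J)) / nb x (c * 2 ^ k) := by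
        rw [div_add_one (by linarith)]; gcongr
      have e8 : Z = 2 * (s.card / nb x (c * 2 ^ k)) := by rw [hZ]; ring
      have e9 : 0 ≤ s.card / nb x (c * 2 ^ k) := by positivity
      push_cast
      nlinarith
    refine e3.trans ?_
    nlinarith [mul_le_mul_of_nonneg_right e4 hl]
  have hfar : ∑ k ∈ range K, ∑ w with ¬ dist x w ≤ c * 2 ^ (k + J),
      ν k w * (dist x w / (c * 2 ^ k)) ^ p ≤ 4 * A := by
    simp only [sum_filter]
    rw [sum_comm]
    refine le_trans (sum_le_card_nsmul _ _ (4 * A * exp (-LL X)) fun w _ => ?_) ?_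
    · rw [← sum_filter]
      rcases (dist_nonneg (x := x) (y := w)).eq_or_lt with hd | hd
      · rw [← hd]
        simp only [zero_div, zero_rpow (show p ≠ 0 by linarith), mul_zero, sum_const_zero]
        positivity
      have hy : ∀ k ∈ (range K).filter fun k => ¬ dist x w ≤ c * 2 ^ (k + J),
          4 * A * LL X ≤ dist x w / (c * 2 ^ k) := fun k hk => by
        have := not_le.1 (mem_filter.1 hk).2
        rw [pow_add, ← mul_assoc] at this
        rw [le_div_iff₀ (by positivity)]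
        nlinarith [show 0 < c * 2 ^ k by positivity]
      have e2 := sum_geom_le ((range K).filter fun k => ¬ dist x w ≤ c * 2 ^ (k + J))
        (c := 4 * A * c / dist x w) (q := 2) (a := 1) (by positivity) one_lt_two zero_le_one
        fun k hk => by
          have := hy k hk
          rw [le_div_iff₀ (by positivity)] at this
          rw [div_mul_eq_mul_div, div_le_one hd]
          nlinarith [show 0 < 4 * A * (c * 2 ^ k) by positivity]
      refine le_trans (sum_le_sum (g := fun k => 2 * A * exp (-LL X) *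
        (4 * A * c / dist x w * 2 ^ k)) fun k hk => ?_) ?_
      · have e3 := hy k hk
        set y := dist x w / (c * 2 ^ k) with hyd
        have e4 : 1 ≤ y := by nlinarith
        have e5 : y ≤ y ^ p := self_le_rpow_of_one_le e4 hp
        have e7 : ν k w ≤ 2 * exp (-(y ^ p / A)) := (h2 k w).trans (by
          gcongr; exact div_le_self zero_le_two (hn k))
        have e8 : y ^ p / A ≤ exp (y ^ p / A / 2) := by
          have := add_one_le_exp (y ^ p / A / 4)
          have e : exp (y ^ p / A / 2) = exp (y ^ p / A / 4) * exp (y ^ p / A / 4) := by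
            rw [← exp_add]; ring_nf
          have : 0 ≤ y ^ p / A := by positivity
          nlinarith [sq_nonneg (y ^ p / A / 4 - 1)]
        have e9 : exp (-(y / (4 * A))) ≤ 4 * A / y := by
          rw [exp_neg, ← inv_div y, inv_le_inv₀ (exp_pos _) (by positivity)]
          linarith [add_one_le_exp (y / (4 * A))]
        have e10 : 4 * A * c / dist x w * 2 ^ k = 4 * A / y := by rw [hyd]; field_simp
        have e11 : LL X ≤ y / (4 * A) := by rw [le_div_iff₀ (by positivity)]; linarith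
        have e12 : y / (4 * A) + y / (4 * A) ≤ y ^ p / A / 2 := by
          rw [← add_div, div_div, div_le_div_iff₀ (by positivity) (by positivity)]
          nlinarith
        rw [e10]
        calc ν k w * y ^ p = A * (ν k w * (y ^ p / A)) := by field_simp
          _ ≤ A * (2 * exp (-(y ^ p / A)) * exp (y ^ p / A / 2)) := by gcongr
          _ ≤ A * (2 * (exp (-LL X) * exp (-(y / (4 * A))))) := by
              rw [mul_assoc, ← exp_add, ← exp_add]
              exact mul_le_mul_of_nonneg_left (mul_le_mul_of_nonneg_left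
                (exp_le_exp.2 (by linarith)) zero_le_two) (by linarith)
          _ ≤ A * (2 * (exp (-LL X) * (4 * A / y))) := by gcongr
          _ = _ := by ring
      · rw [← mul_sum]
        refine (mul_le_mul_of_nonneg_left e2 (by positivity)).trans (le_of_eq ?_)
        ring
    · rw [card_univ, nsmul_eq_mul, mul_left_comm]
      exact mul_le_of_le_one_right (by positivity) (card_mul_exp_le X)
  have hsplit : ∀ k, ∑ w, ν k w * (dist x w / (c * 2 ^ k)) ^ p ≤
      ∑ w with dist x w ≤ c * 2 ^ k, ν k w * (dist x w / (c * 2 ^ k)) ^ p +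
      (∑ w with ¬ dist x w ≤ c * 2 ^ k ∧ dist x w ≤ c * 2 ^ (k + J),
        ν k w * (dist x w / (c * 2 ^ k)) ^ p +
      ∑ w with ¬ dist x w ≤ c * 2 ^ (k + J), ν k w * (dist x w / (c * 2 ^ k)) ^ p) := by
    intro k
    simp only [sum_filter, ← sum_add_distrib]
    refine sum_le_sum fun w _ => ?_
    have : 0 ≤ ν k w * (dist x w / (c * 2 ^ k)) ^ p := mul_nonneg (h0 k w) (by positivity)
    by_cases a : dist x w ≤ c * 2 ^ k <;> by_cases b : dist x w ≤ c * 2 ^ (k + J) <;>
      simp only [a, b, if_true, if_false, not_true, not_false_iff, and_true, and_false] <;>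
      linarith
  refine (sum_le_sum fun k _ => hsplit k).trans ?_
  rw [sum_add_distrib, sum_add_distrib]
  have hJ0 : (0 : ℝ) ≤ J := Nat.cast_nonneg J
  nlinarith [mul_nonneg hJ0 (show 0 ≤ A * LL X by positivity), mul_nonneg (sub_nonneg.2 hA)
    (sub_nonneg.2 hL)]

/-- A pointwise gradient whose `p`-th power sums are at most `M`. -/
def Haj (p M : ℝ) (g : Ω → X → ℝ) : Prop :=
  ∃ h : Ω → X → ℝ, (∀ ω x, 0 ≤ h ω x) ∧
    (∀ ω x y, |g ω x - g ω y| ≤ dist x y * (h ω x + h ω y)) ∧ ∀ x, ∑ ω, h ω x ^ p ≤ M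

lemma haj_of_cf {p A : ℝ} (hp : 1 ≤ p) (hA : 1 ≤ A) {J : ℕ} (hJ : 4 * A * LL X ≤ 2 ^ J)
    {g : Ω → X → ℝ} (hd : ∀ x y, dist x y ^ p = ∑ ω, |g ω x - g ω y| ^ p)
    (h : ∀ r > 0, CF X p (1 / 10) r A) : Haj p (4 ^ p * (8 * A * LL X * (J + 1))) g := by
  have hp0 : 0 < p := by linarith
  obtain ⟨c, hc, hc'⟩ := exists_base fun t : X × X => dist t.1 t.2
  obtain ⟨K, hK⟩ := exists_top (fun t : X × X => dist t.1 t.2) hc
  choose ν h0 h1 h2 h3 using fun k : ℕ => (h (c * 2 ^ k) (by positivity)).kernel (by positivity)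
  let u : ℕ → Ω → X → ℝ := fun k ω x => 4 * ∑ w, ν k x w * |(g ω x - g ω w) / (c * 2 ^ k)|
  have hu : ∀ k ω x, 0 ≤ u k ω x := fun k ω x =>
    mul_nonneg (by norm_num) (sum_nonneg fun w _ => mul_nonneg (h0 _ _ _) (abs_nonneg _))
  have hs : ∀ ω x, 0 ≤ ∑ k ∈ range (K + 1), u k ω x ^ p := fun ω x =>
    sum_nonneg fun k _ => rpow_nonneg (hu _ _ _) _
  refine ⟨fun ω x => (∑ k ∈ range (K + 1), u k ω x ^ p) ^ p⁻¹,
    fun ω x => rpow_nonneg (hs ω x) _, fun ω x y => ?_, fun x => ?_⟩
  · rcases eq_or_ne x y with rfl | hxy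
    · simp
    obtain ⟨j, hj, e1, e2⟩ := exists_dyadic (hc' (x, y) (dist_pos.2 hxy)) hc (hK (x, y))
    have e3 : ∀ z, u j ω z ≤ (∑ k ∈ range (K + 1), u k ω z ^ p) ^ p⁻¹ := fun z => by
      rw [← rpow_rpow_inv (hu j ω z) hp0.ne']
      refine rpow_le_rpow (rpow_nonneg (hu _ _ _) _) ?_ (by positivity)
      exact single_le_sum (f := fun k => u k ω z ^ p) (fun k _ => rpow_nonneg (hu _ _ _) _)
        (mem_range.2 (by omega))
    have e4 := h3 j (fun z => g ω z / (c * 2 ^ j)) x y e1
    have hr : 0 < c * 2 ^ j := by positivity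
    simp only [← sub_div] at e4
    rw [abs_div, abs_of_pos hr, div_le_iff₀ hr] at e4
    refine e4.trans (le_trans ?_ (mul_le_mul_of_nonneg_left (add_le_add (e3 x) (e3 y))
      dist_nonneg))
    have e5 := hu j ω x
    have e6 := hu j ω y
    simp only [u] at e5 e6 ⊢
    dsimp only at e2
    nlinarith
  · simp only [rpow_inv_rpow (hs _ _) hp0.ne']
    rw [sum_comm]
    refine le_trans (sum_le_sum fun k _ => ?_) ((mul_sum _ _ _).symm.trans_le
      (mul_le_mul_of_nonneg_left (total_le hp hA hc hJ x (fun k => ν k x) (fun k => h0 k x)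
        (fun k => h1 k x) (fun k => h2 k x) (K + 1)) (by positivity)))
    simp only [← sum_div_rpow hd (show 0 < c * 2 ^ k by positivity), mul_sum]
    rw [sum_comm]
    refine sum_le_sum fun ω _ => ?_
    rw [← mul_sum, mul_rpow (by norm_num)
      (sum_nonneg fun w _ => mul_nonneg (h0 _ _ _) (abs_nonneg _))]
    gcongr
    exact jensen_sub hp (h0 k x) (h1 k x) fun w => abs_nonneg _

theorem haj {p γ : ℝ} (hp : 1 ≤ p) (h1 : 1 < γ * p) (h2 : 1 / 2 < γ) :
    ∃ C ≥ 1, ∀ (X : Type) [MetricSpace X] [Fintype X] [DecidableEq X] (Ω : Type)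
      [Fintype Ω] (g : Ω → X → ℝ), (∀ x y, dist x y ^ p = ∑ ω, |g ω x - g ω y| ^ p) →
      Haj p ((C * LL X ^ γ) ^ p) g := by
  have hp0 : 0 < p := by linarith
  obtain ⟨β, hβ1, hβ2⟩ := exists_between (show max 1 (p / 2) < γ * p from
    max_lt h1 (by nlinarith))
  have hβ3 := lt_of_le_of_lt (le_max_left _ _) hβ1
  have hβ4 := lt_of_le_of_lt (le_max_right _ _) hβ1
  obtain ⟨C, hC, h⟩ := cfp (α := β - 1) hp (by linarith) (by linarith) (1 / 10) (by norm_num)
  set η := γ * p / β - 1 with hη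
  have hη0 : 0 < η := by rw [hη, sub_pos, lt_div_iff₀ (by linarith)]; linarith
  refine ⟨max 1 ((4 ^ p * (2 * (4 * C) * ((2 / η + 2) * (4 * C) ^ η))) ^ p⁻¹), le_max_left _ _,
    fun X _ _ _ Ω _ g hd => ?_⟩
  have hL := one_le_LL X
  have hA : 1 ≤ C * LL X ^ (β - 1) :=
    one_le_mul_of_one_le_of_one_le hC (one_le_rpow hL (by linarith))
  set y := 4 * (C * LL X ^ (β - 1)) * LL X with hy
  have hy1 : y = 4 * C * LL X ^ β := by
    rw [hy, rpow_sub_one (by linarith)]; field_simp
  have hy2 : 1 ≤ y := by nlinarith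
  obtain ⟨J, hJ1, hJ2⟩ := exists_nat_pow_near hy2 one_lt_two
  obtain ⟨h', a1, a2, a3⟩ := haj_of_cf hp hA (J := J + 1) hJ2.le hd (h X Ω g hd)
  refine ⟨h', a1, a2, fun x => (a3 x).trans ?_⟩
  have e1 : (J : ℝ) ≤ 2 / η * y ^ η := by
    have e2 := log_le_log (by positivity) hJ1
    rw [log_pow] at e2
    have e3 := log_le_rpow_div (by linarith : 0 ≤ y) hη0
    have e4 : (J : ℝ) * (1 / 2) ≤ J * log 2 := by gcongr; linarith [log_two_gt_d9]
    rw [div_mul_eq_mul_div, mul_div_assoc]
    linarith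
  have e2 : 1 ≤ y ^ η := one_le_rpow hy2 hη0.le
  have e3 : y * y ^ η = 4 * C * (4 * C) ^ η * (LL X ^ γ) ^ p := by
    rw [hy1, mul_rpow (by positivity) (by positivity), ← rpow_mul (by linarith),
      ← rpow_mul (by linarith)]
    have : γ * p = β + β * η := by rw [hη]; field_simp; ring
    rw [this, rpow_add (by linarith)]
    ring
  rw [mul_rpow (by positivity) (by positivity)]
  calc _ = 4 ^ p * (2 * y * (J + 2)) := by rw [hy]; push_cast; ring
    _ ≤ 4 ^ p * (2 * y * ((2 / η + 2) * y ^ η)) := by gcongr; linarith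
    _ = ((4 ^ p * (2 * (4 * C) * ((2 / η + 2) * (4 * C) ^ η))) ^ p⁻¹) ^ p * (LL X ^ γ) ^ p := by
        rw [rpow_inv_rpow (by positivity) hp0.ne']
        linear_combination (4 ^ p * 2 * (2 / η + 2)) * e3
    _ ≤ _ := by gcongr; exact le_max_right _ _

end Vale.Agent.P249
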