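import Vale.Agent.P249.Band
import Vale.Agent.P249.Defs

/-! Reduction from `L_p(μ)` to finitely many coordinates. -/

namespace Vale.Agent.P249

open Finset Real MeasureTheory
open scoped ENNReal

lemma exists_finite_approx {Ω : Type*} [MeasurableSpace Ω] {μ : Measure Ω} {p : ℝ≥0∞}
    (hp0 : p ≠ 0) (hp : p ≠ ∞) {X : Type} [Fintype X] (x : X → Lp ℝ p μ) {η : ℝ} (hη : 0 < η) :
    ∃ (Ω' : Type) (_ : Fintype Ω') (g : Ω' → X → ℝ), ∀ a b,
      |∑ ω, |g ω a - g ω b| ^ p.toReal - ‖x a - x b‖ ^ p.toReal| < η := by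
  have hq : 0 < p.toReal := ENNReal.toReal_pos hp0 hp
  let vec : (X → ℝ) → X × X → ℝ := fun g e => |g e.1 - g e.2| ^ p.toReal
  have hvec : ∀ (t : ℝ) (g : X → ℝ), 0 ≤ t → vec (fun a => t ^ p.toReal⁻¹ * g a) = t • vec g :=
    fun t g ht => by
      ext e
      simp only [vec, ← mul_sub, abs_mul, Pi.smul_apply, smul_eq_mul]
      rw [mul_rpow (abs_nonneg _) (abs_nonneg _), abs_of_nonneg (rpow_nonneg ht _),
        rpow_inv_rpow ht hq.ne']
  let C : Set (X × X → ℝ) :=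
    {v | ∃ (Ω' : Type) (_ : Fintype Ω') (g : Ω' → X → ℝ), v = ∑ ω, vec (g ω)}
  have hC : Convex ℝ C := by
    rintro _ ⟨Ω₁, _, g₁, rfl⟩ _ ⟨Ω₂, _, g₂, rfl⟩ s t hs ht -
    refine ⟨Ω₁ ⊕ Ω₂, inferInstance, Sum.elim (fun ω a => s ^ p.toReal⁻¹ * g₁ ω a)
      (fun ω a => t ^ p.toReal⁻¹ * g₂ ω a), ?_⟩
    simp only [Fintype.sum_sum_type, Sum.elim_inl, Sum.elim_inr, hvec _ _ hs, hvec _ _ ht,
      smul_sum]
  have hint : ∀ e : X × X, Integrable (fun ω => vec (fun a => x a ω) e) μ := fun e => by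
    simpa [vec] using ((Lp.memLp (x e.1)).sub (Lp.memLp (x e.2))).integrable_norm_rpow hp0 hp
  have hv : (fun e : X × X => ‖x e.1 - x e.2‖ ^ p.toReal) = ∫ ω, vec (fun a => x a ω) ∂μ := by
    ext e
    rw [eval_integral hint, Lp.norm_def, eLpNorm_congr_ae (Lp.coeFn_sub _ _),
      ((Lp.memLp (x e.1)).sub (Lp.memLp (x e.2))).eLpNorm_eq_integral_rpow_norm hp0 hp,
      ENNReal.toReal_ofReal (by positivity), rpow_inv_rpow (by positivity) hq.ne']
    simp [vec]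
  have hmem : (fun e : X × X => ‖x e.1 - x e.2‖ ^ p.toReal) ∈ closure C := by
    by_contra hn
    obtain ⟨f, u, h1, h2⟩ := geometric_hahn_banach_closed_point hC.closure isClosed_closure hn
    have h3 : ∀ g, vec g ∈ closure C := fun g =>
      subset_closure ⟨Unit, inferInstance, fun _ => g, by simp⟩
    have h4 : ∀ (t : ℝ) g, 0 ≤ t → t * f (vec g) < u := fun t g ht => by
      have := h1 _ (h3 fun a => t ^ p.toReal⁻¹ * g a)
      rwa [hvec _ _ ht, map_smul] at this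
    have h5 : 0 < u := by simpa using h4 0 0 le_rfl
    have h6 : ∀ g, f (vec g) ≤ 0 := fun g => by
      by_contra h
      have h' := not_le.1 h
      have := h4 (u / f (vec g)) g (by positivity)
      rw [div_mul_cancel₀ _ h'.ne'] at this
      exact lt_irrefl _ this
    rw [hv, ← f.integral_comp_comm (Integrable.of_eval hint)] at h2
    linarith [integral_nonpos (μ := μ) fun ω => h6 fun a => x a ω]
  obtain ⟨_, ⟨Ω', _, g, rfl⟩, h⟩ := Metric.mem_closure_iff.1 hmem η hη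
  refine ⟨Ω', inferInstance, g, fun a b => ?_⟩
  have := (dist_le_pi_dist _ _ (a, b)).trans_lt h
  rw [Real.dist_eq, abs_sub_comm] at this
  simpa [vec] using this

theorem embeds {p : ℝ≥0∞} (hp1 : 1 < p) (hp : p ≠ ∞) {D γ : ℝ} (hD : 1 < D)
    (h1 : 1 / p.toReal < γ) (h2 : 1 / 2 < γ) :
    ∃ C > 0, ∀ n : ℕ, ∃ d : ℕ, d ≤ exp (C * (1 + log n) ^ γ) ∧ Embeds p n D d := by
  have hp0 : p ≠ 0 := (zero_lt_one.trans hp1).ne'
  have hq1 : 1 < p.toReal := by
    simpa using (ENNReal.toReal_lt_toReal ENNReal.one_ne_top hp).2 hp1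
  have hq : 0 < p.toReal := by linarith
  have : Fact (1 ≤ p) := ⟨hp1.le⟩
  have hγ : 0 < γ := by linarith
  obtain ⟨C₁, hC₁, H₁⟩ := haj hq1.le ((div_lt_iff₀ hq).1 h1) h2
  obtain ⟨C₂, hC₂, H₂⟩ := core hq1.le (one_lt_rpow hD (show (0 : ℝ) < 1 / 2 by norm_num))
  have hC : 0 < C₂ + (p.toReal + 1) / γ + C₂ * C₁ := by positivity
  refine ⟨C₂ + (p.toReal + 1) / γ + C₂ * C₁, hC, fun n =>
    ⟨⌊exp ((C₂ + (p.toReal + 1) / γ + C₂ * C₁) * (1 + log n) ^ γ)⌋₊,
      Nat.floor_le (exp_pos _).le, fun Ω _ μ X hX => ?_⟩⟩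
  classical
  let e : X ≃ Fin n := Finset.equivFinOfCardEq hX
  let x : Fin n → Lp ℝ p μ := fun a => (e.symm a : Lp ℝ p μ)
  have hx : ∀ a b, a ≠ b → 0 < ‖x a - x b‖ ^ p.toReal := fun a b hab =>
    rpow_pos_of_pos (norm_pos_iff.2 (sub_ne_zero.2 fun h =>
      hab (e.symm.injective (Subtype.ext h)))) _
  obtain ⟨c, hc, hc'⟩ := exists_base fun t : Fin n × Fin n => ‖x t.1 - x t.2‖ ^ p.toReal
  set ζ := D ^ (p.toReal / 4) with hζ
  have hζ1 : 1 < ζ := one_lt_rpow hD (by positivity)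
  have hζ2 : 0 < 1 - ζ⁻¹ := sub_pos.2 (inv_lt_one_of_one_lt₀ hζ1)
  obtain ⟨Ω', _, g, hg⟩ := exists_finite_approx hp0 hp x (mul_pos hζ2 hc)
  have hg' : ∀ a b, ζ⁻¹ * ‖x a - x b‖ ^ p.toReal ≤ ∑ ω, |g ω a - g ω b| ^ p.toReal ∧
      ∑ ω, |g ω a - g ω b| ^ p.toReal ≤ ζ * ‖x a - x b‖ ^ p.toReal := fun a b => by
    rcases eq_or_ne a b with rfl | hab
    · simp [hq.ne']
    have e1 := abs_lt.1 (hg a b)
    have e2 := mul_le_mul_of_nonneg_left (hc' (a, b) (hx a b hab)) hζ2.le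
    have e3 : 1 - ζ⁻¹ ≤ ζ - 1 := by
      have : ζ * ζ⁻¹ = 1 := mul_inv_cancel₀ (by linarith)
      nlinarith [sq_nonneg (ζ - 1)]
    dsimp only at e2
    constructor <;> nlinarith [hx a b hab]
  let G : Fin n → PiLp p fun _ : Ω' => ℝ := fun a => WithLp.toLp p fun ω => g ω a
  have hG : ∀ a b, dist (G a) (G b) ^ p.toReal = ∑ ω, |g ω a - g ω b| ^ p.toReal := fun a b => by
    rw [PiLp.dist_eq_sum hq, one_div, rpow_inv_rpow (by positivity) hq.ne']
    simp [G, Real.dist_eq]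
  have hGi : Function.Injective G := fun a b hab => by
    by_contra h
    have e1 := (hg' a b).1
    rw [← hG, hab, dist_self, zero_rpow hq.ne'] at e1
    have : 0 < ζ⁻¹ * ‖x a - x b‖ ^ p.toReal := mul_pos (by positivity) (hx a b h)
    linarith
  let _ : MetricSpace (Fin n) := MetricSpace.induced G hGi inferInstance
  have hL : LL (Fin n) = 1 + log n := by simp [LL]
  have hL1 := one_le_LL (Fin n)
  have hLγ : 1 ≤ LL (Fin n) ^ γ := one_le_rpow hL1 hγ.le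
  obtain ⟨d, hd, f, s, hs, hf⟩ := H₂ (Fin n) Ω' g hG _
    (one_le_mul_of_one_le_of_one_le hC₁ hLγ) (H₁ (Fin n) Ω' g hG)
  have hd' : d ≤ ⌊exp ((C₂ + (p.toReal + 1) / γ + C₂ * C₁) * (1 + log n) ^ γ)⌋₊ := by
    refine Nat.le_floor (hd.trans ?_)
    rw [← hL, add_mul, add_mul, exp_add, exp_add, mul_assoc C₂ C₁]
    gcongr
    · nlinarith [add_one_le_exp (C₂ * LL (Fin n) ^ γ)]
    · rw [rpow_def_of_pos (by linarith), exp_le_exp, mul_comm, div_mul_eq_mul_div, mul_div_assoc]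
      gcongr
      exact log_le_rpow_div (by linarith) hγ
  obtain ⟨k, hk⟩ := Nat.exists_eq_add_of_le hd'
  rw [hk]
  let F : Fin n → PiLp p fun _ : Fin (d + k) => ℝ := fun a =>
    WithLp.toLp p (Fin.append (f a) fun _ => 0)
  have hF : ∀ a b, ‖F a - F b‖ ^ p.toReal = ∑ j, |f a j - f b j| ^ p.toReal := fun a b => by
    rw [PiLp.norm_eq_sum hq, one_div, rpow_inv_rpow (by positivity) hq.ne', Fin.sum_univ_add]
    simp [F, hq.ne']
  refine ⟨fun y => if h : y ∈ X then F (e ⟨y, h⟩) else 0, (s * ζ⁻¹) ^ p.toReal⁻¹, by positivity,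
    fun y hy z hz => ?_⟩
  simp only [dif_pos hy, dif_pos hz]
  have e1 := hf (e ⟨y, hy⟩) (e ⟨z, hz⟩)
  have e2 := hg' (e ⟨y, hy⟩) (e ⟨z, hz⟩)
  rw [← hF] at e1
  rw [← hG] at e2
  simp only [x, Equiv.symm_apply_apply] at e2
  change s * dist (G _) (G _) ^ _ ≤ _ ∧ _ ≤ _ * s * dist (G _) (G _) ^ _ at e1
  have hD0 : 0 < D := by linarith
  constructor
  · rw [← rpow_le_rpow_iff (by positivity) (by positivity) hq,
      mul_rpow (by positivity) (by positivity), rpow_inv_rpow (by positivity) hq.ne', mul_assoc]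
    exact (mul_le_mul_of_nonneg_left e2.1 hs.le).trans e1.1
  · rw [← rpow_le_rpow_iff (by positivity) (by positivity) hq,
      mul_rpow (by positivity) (by positivity), mul_rpow (by positivity) (by positivity),
      rpow_inv_rpow (by positivity) hq.ne']
    refine e1.2.trans ((mul_le_mul_of_nonneg_left e2.2 (by positivity)).trans (le_of_eq ?_))
    have e3 : D ^ p.toReal = (D ^ (1 / 2 : ℝ)) ^ p.toReal * ζ * ζ := by
      rw [hζ, ← rpow_mul hD0.le, ← rpow_add hD0, ← rpow_add hD0]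
      ring_nf
    rw [e3]
    field_simp

end Vale.Agent.P249
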