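import Vale.Agent.P249.Cover

/-! Separating kernels on finite subsets of `L_p`. -/

namespace Vale.Agent.P249

open Finset Real

lemma rpow_le_exp {p φ : ℝ} (hp : 0 < p) (hφ : 0 ≤ φ) : φ ^ p ≤ (2 * p) ^ p * exp (φ / 2) := by
  have h1 : φ / (2 * p) ≤ exp (φ / (2 * p)) := by linarith [add_one_le_exp (φ / (2 * p))]
  have h2 := rpow_le_rpow (by positivity) h1 hp.le
  rw [← exp_mul, div_rpow hφ (by positivity), div_le_iff₀ (by positivity),
    show φ / (2 * p) * p = φ / 2 by field_simp] at h2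
  rwa [mul_comm]

lemma tail_le {ν φ c t : ℝ} (hν : 0 ≤ ν) (hc : 0 ≤ c) (ht : 0 ≤ t)
    (h : ν ≤ c * exp (-φ)) : ν * φ ≤ ν * t + c * exp (-(t / 2)) := by
  rcases le_total φ t with h1 | h1
  · have := mul_le_mul_of_nonneg_left h1 hν
    have : 0 ≤ c * exp (-(t / 2)) := by positivity
    linarith
  · have h2 : φ ≤ exp (φ / 2) := by
      have := add_one_le_exp (φ / 4)
      have e : exp (φ / 2) = exp (φ / 4) * exp (φ / 4) := by rw [← exp_add]; ring_nf
      nlinarith [sq_nonneg (φ / 4 - 1)]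
    have h3 : ν * φ ≤ c * exp (-φ) * exp (φ / 2) :=
      mul_le_mul h h2 (by linarith) (by positivity)
    have h4 : c * exp (-φ) * exp (φ / 2) ≤ c * exp (-(t / 2)) := by
      rw [mul_assoc, ← exp_add]
      gcongr
      linarith
    nlinarith [mul_nonneg hν ht]

lemma exists_base {ι : Type*} [Fintype ι] (t : ι → ℝ) : ∃ c, 0 < c ∧ ∀ i, 0 < t i → c ≤ t i := by
  classical
  rcases (univ.filter fun i => 0 < t i).eq_empty_or_nonempty with he | hne
  · refine ⟨1, one_pos, fun i hi => ?_⟩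
    have : i ∈ univ.filter fun i => 0 < t i := by simp [hi]
    rw [he] at this
    simp at this
  · obtain ⟨i, hi, hmin⟩ := exists_min_image _ t hne
    exact ⟨t i, (mem_filter.1 hi).2, fun j hj => hmin j (by simp [hj])⟩

lemma exists_top {ι : Type*} [Fintype ι] (t : ι → ℝ) {c : ℝ} (hc : 0 < c) :
    ∃ K : ℕ, ∀ i, t i ≤ c * 2 ^ K := by
  obtain ⟨K, hK⟩ := pow_unbounded_of_one_lt ((∑ i, |t i|) / c) (one_lt_two (α := ℝ))
  refine ⟨K, fun i => ?_⟩
  rw [div_lt_iff₀ hc] at hK
  have := single_le_sum (f := fun i => |t i|) (fun _ _ => abs_nonneg _) (mem_univ i)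
  linarith [le_abs_self (t i)]

lemma exists_dyadic {c t : ℝ} {K : ℕ} (h1 : c ≤ t) (hc : 0 < c) (h2 : t ≤ c * 2 ^ K) :
    ∃ j ≤ K, t ≤ c * 2 ^ j ∧ c * 2 ^ j ≤ 2 * t := by
  classical
  have hex : ∃ j : ℕ, t ≤ c * 2 ^ j := ⟨K, h2⟩
  refine ⟨Nat.find hex, Nat.find_min' hex h2, Nat.find_spec hex, ?_⟩
  rcases h : Nat.find hex with _ | j
  · simp only [pow_zero, mul_one]; linarith
  · have := Nat.find_min hex (show j < Nat.find hex by omega)
    rw [pow_succ]
    linarith [not_le.1 this]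

/-- The Mazur map on the line. -/
noncomputable def mz (s a : ℝ) : ℝ := a * |a| ^ (s - 1)

lemma mz_neg (s a : ℝ) : mz s (-a) = -mz s a := by simp [mz]

lemma mz_of_nonneg {s a : ℝ} (hs : 1 ≤ s) (ha : 0 ≤ a) : mz s a = a ^ s := by
  rw [mz, abs_of_nonneg ha, mul_comm, ← rpow_add_one' ha (by linarith)]
  ring_nf

lemma mz_bounds {s : ℝ} (hs : 1 ≤ s) (a b : ℝ) : (|a - b| / 2) ^ s ≤ |mz s a - mz s b| ∧
    |mz s a - mz s b| ≤ s * |a - b| * (max |a| |b|) ^ (s - 1) := by
  wlog h : |b| ≤ |a| generalizing a b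
  · have := this b a (le_of_not_ge h)
    rwa [abs_sub_comm b a, abs_sub_comm (mz s b), max_comm] at this
  wlog ha : 0 ≤ a generalizing a b
  · have := this (-a) (-b) (by simpa using h) (by linarith)
    rwa [mz_neg, mz_neg, ← neg_sub', ← neg_sub', abs_neg, abs_neg, abs_neg, abs_neg] at this
  rw [max_eq_left h, abs_of_nonneg ha, mz_of_nonneg hs ha]
  rw [abs_of_nonneg ha] at h
  have hs0 : 0 ≤ s := by linarith
  have hpow : a ^ s = a * a ^ (s - 1) := by
    rw [mul_comm, ← rpow_add_one' ha (by linarith)]; ring_nf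
  rcases le_total 0 b with hb | hb
  · rw [abs_of_nonneg hb] at h
    rw [mz_of_nonneg hs hb, abs_of_nonneg (sub_nonneg.2 h),
      abs_of_nonneg (sub_nonneg.2 (rpow_le_rpow hb h hs0))]
    constructor
    · have h1 := add_rpow_le_rpow_add (sub_nonneg.2 h) hb hs
      rw [sub_add_cancel] at h1
      have h2 : ((a - b) / 2) ^ s ≤ (a - b) ^ s :=
        rpow_le_rpow (by linarith) (by linarith) hs0
      linarith
    · rcases ha.eq_or_lt with rfl | ha'
      · have : b = 0 := le_antisymm h hb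
        simp [this]
      have h1 := one_add_mul_self_le_rpow_one_add (s := (b - a) / a)
        (by rw [le_div_iff₀ ha']; linarith) hs
      have h2 : 1 + (b - a) / a = b / a := by field_simp; ring
      rw [h2, div_rpow hb ha, le_div_iff₀ (by positivity), hpow] at h1
      have h3 : (1 + s * ((b - a) / a)) * (a * a ^ (s - 1)) =
          a * a ^ (s - 1) - s * (a - b) * a ^ (s - 1) := by field_simp; ring
      rw [hpow]
      linarith
  · rw [abs_of_nonpos hb] at h
    have hb' : mz s b = -(-b) ^ s := by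
      rw [← mz_of_nonneg hs (neg_nonneg.2 hb), mz_neg, neg_neg]
    have h0 : 0 ≤ (-b) ^ s := rpow_nonneg (neg_nonneg.2 hb) s
    rw [hb', sub_neg_eq_add, abs_of_nonneg (show 0 ≤ a - b by linarith),
      abs_of_nonneg (add_nonneg (rpow_nonneg ha s) h0)]
    constructor
    · have h2 : ((a - b) / 2) ^ s ≤ a ^ s := rpow_le_rpow (by linarith) (by linarith) hs0
      linarith
    · have h1 : (-b) ^ s = (-b) * (-b) ^ (s - 1) := by
        rw [mul_comm, ← rpow_add_one' (neg_nonneg.2 hb) (by linarith)]; ring_nf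
      have h2 : (-b) ^ (s - 1) ≤ a ^ (s - 1) := rpow_le_rpow (neg_nonneg.2 hb) h (by linarith)
      have h3 := mul_le_mul_of_nonneg_left h2 (neg_nonneg.2 hb)
      have h4 : 0 ≤ (a - b) * a ^ (s - 1) := mul_nonneg (by linarith) (rpow_nonneg ha _)
      rw [h1, hpow]
      nlinarith

lemma add_rpow_le_two {a b p : ℝ} (ha : 0 ≤ a) (hb : 0 ≤ b) (hp : 0 ≤ p) :
    (a + b) ^ p ≤ 2 ^ p * (a ^ p + b ^ p) := by
  wlog h : b ≤ a generalizing a b
  · rw [add_comm, add_comm (a ^ p)]; exact this hb ha (le_of_not_ge h)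
  calc _ ≤ (2 * a) ^ p := rpow_le_rpow (by linarith) (by linarith) hp
    _ = 2 ^ p * a ^ p := mul_rpow (by norm_num) ha
    _ ≤ _ := by gcongr; exact le_add_of_nonneg_right (rpow_nonneg hb p)

variable (X : Type) [MetricSpace X] [Fintype X] [DecidableEq X]

/-- The logarithmic size parameter. -/
noncomputable def LL (X : Type) [Fintype X] : ℝ := 1 + log (Fintype.card X)

lemma one_le_LL (X : Type) [Fintype X] : 1 ≤ LL X := by
  have := log_natCast_nonneg (Fintype.card X)
  unfold LL; linarith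

lemma card_mul_exp_le (X : Type) [Fintype X] : Fintype.card X * exp (-LL X) ≤ 1 := by
  rcases Nat.eq_zero_or_pos (Fintype.card X) with h | h
  · simp [h]
  have h' : (0 : ℝ) < Fintype.card X := by exact_mod_cast h
  rw [exp_neg, ← div_eq_mul_inv, div_le_one (exp_pos _), LL, exp_add, exp_log h']
  exact le_mul_of_one_le_left h'.le (one_le_exp zero_le_one)

/-- An overlap kernel that keeps close points together and decays with the distance. -/
def CF (p τ r A : ℝ) : Prop :=
  ∃ k : X → X → ℝ, IsCP k ∧ (∀ x, k x x = 1) ∧ (∀ x y, dist x y ≤ r → 1 - τ ≤ k x y) ∧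
    ∀ x y, k x y ≤ exp (-((dist x y / r) ^ p / A))

/-- Probability vectors that overlap for close points and are concentrated near the point. -/
def Sep (p τ r B : ℝ) : Prop :=
  ∃ ρ : X → X → ℝ, (∀ x z, 0 ≤ ρ x z) ∧ (∀ x, ∑ z, ρ x z = 1) ∧
    (∀ x y, dist x y ≤ r → 1 - τ ≤ ∑ z, min (ρ x z) (ρ y z)) ∧
    ∀ x, ∑ z, ρ x z * (dist x z / r) ^ p ≤ B

omit [DecidableEq X] in
lemma sep_base {p τ r : ℝ} (hp : 0 < p) (hτ : 0 < τ) (hr : 0 < r) :
    Sep X p τ r ((2 / τ) ^ p * (2 ^ p + (2 * p) ^ p) * LL X ^ p) := by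
  set a := 2 * r / τ with ha
  have ha0 : 0 < a := by positivity
  let Z : X → ℝ := fun x => ∑ z, exp (-(dist x z / a))
  have hZ : ∀ x, 1 ≤ Z x := fun x => by
    have := single_le_sum (f := fun z => exp (-(dist x z / a))) (fun _ _ => (exp_pos _).le)
      (mem_univ x)
    simpa using this
  have hZ0 : ∀ x, 0 < Z x := fun x => lt_of_lt_of_le one_pos (hZ x)
  refine ⟨fun x z => exp (-(dist x z / a)) / Z x, fun x z => (div_pos (exp_pos _) (hZ0 x)).le,
    fun x => by rw [← sum_div, div_self (hZ0 x).ne'], fun x y hxy => ?_, fun x => ?_⟩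
  · have h1 : ∀ x y z : X, dist x y ≤ r →
        exp (-(r / a)) * exp (-(dist x z / a)) ≤ exp (-(dist y z / a)) := fun x y z h => by
      rw [← exp_add, exp_le_exp, ← neg_add, neg_le_neg_iff, ← add_div]
      gcongr
      linarith [dist_triangle y x z, dist_comm x y]
    have h2 : exp (-(r / a)) * Z y ≤ Z x := by
      rw [mul_sum]; exact sum_le_sum fun z _ => h1 y x z (by rwa [dist_comm])
    have h3 : ∀ z, exp (-(r / a)) * exp (-(r / a)) * (exp (-(dist x z / a)) / Z x) ≤
        min (exp (-(dist x z / a)) / Z x) (exp (-(dist y z / a)) / Z y) := fun z => by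
      have e1 : exp (-(r / a)) ≤ 1 := exp_le_one_iff.2 (by have := div_pos hr ha0; linarith)
      refine le_min (mul_le_of_le_one_left (div_pos (exp_pos _) (hZ0 x)).le
        (mul_le_one₀ e1 (exp_pos _).le e1)) ?_
      rw [← mul_div_assoc, div_le_div_iff₀ (hZ0 x) (hZ0 y)]
      calc _ = (exp (-(r / a)) * exp (-(dist x z / a))) * (exp (-(r / a)) * Z y) := by ring
        _ ≤ _ := mul_le_mul (h1 x y z hxy) h2 (mul_pos (exp_pos _) (hZ0 y)).le (exp_pos _).le
    refine le_trans ?_ (sum_le_sum fun z _ => h3 z)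
    rw [← mul_sum, ← sum_div, div_self (hZ0 x).ne', mul_one, ← exp_add]
    have : -(r / a) + -(r / a) = -τ := by rw [ha]; field_simp; ring
    rw [this]
    linarith [add_one_le_exp (-τ)]
  · have hL := one_le_LL X
    have h1 : ∀ z, exp (-(dist x z / a)) / Z x * (dist x z / r) ^ p ≤ (2 / τ) ^ p *
        (exp (-(dist x z / a)) / Z x * (2 * LL X) ^ p + (2 * p) ^ p * exp (-LL X)) := fun z => by
      have e1 : dist x z / r = 2 / τ * (dist x z / a) := by rw [ha]; field_simp
      have e0 : 0 ≤ dist x z / a := by positivity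
      rw [e1, mul_rpow (by positivity) e0, mul_left_comm]
      gcongr
      have e2 : 0 ≤ exp (-(dist x z / a)) / Z x := (div_pos (exp_pos _) (hZ0 x)).le
      rcases le_total (dist x z / a) (2 * LL X) with h | h
      · have := mul_le_mul_of_nonneg_left (rpow_le_rpow e0 h hp.le) e2
        have : 0 ≤ (2 * p) ^ p * exp (-LL X) := by positivity
        linarith
      · have e3 := mul_le_mul (div_le_self (exp_pos (-(dist x z / a))).le (hZ x))
          (rpow_le_exp hp e0) (by positivity) (exp_pos _).le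
        have e4 : exp (-(dist x z / a)) * ((2 * p) ^ p * exp (dist x z / a / 2)) ≤
            (2 * p) ^ p * exp (-LL X) := by
          rw [mul_left_comm, ← exp_add]
          gcongr
          linarith
        have : 0 ≤ exp (-(dist x z / a)) / Z x * (2 * LL X) ^ p := by positivity
        linarith
    refine (sum_le_sum fun z _ => h1 z).trans ?_
    rw [← mul_sum, sum_add_distrib, ← sum_mul, ← sum_div, div_self (hZ0 x).ne', one_mul, sum_const,
      card_univ, nsmul_eq_mul, mul_assoc, mul_rpow (by norm_num) (by linarith), add_mul]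
    refine mul_le_mul_of_nonneg_left (add_le_add le_rfl ?_) (by positivity)
    rw [mul_left_comm]
    exact mul_le_mul_of_nonneg_left ((card_mul_exp_le X).trans (one_le_rpow hL hp.le))
      (by positivity)

variable {X}

lemma CF.sep {p τ r A : ℝ} (h : CF X p τ r A) (hA : 0 < A) : Sep X p τ r (3 * A * LL X) := by
  obtain ⟨k, ⟨μ, h0, hμ⟩, h1, h2, h3⟩ := h
  have hs : ∀ x y, ∑ w, ∑ S, (if x ∈ S ∧ y ∈ S ∧ w ∈ S then μ S / S.card else 0) = k x y := by
    intro x y
    rw [hμ, sum_comm]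
    refine sum_congr rfl fun S _ => ?_
    split_ifs with h
    · simp only [h.1, h.2, true_and, sum_ite_mem, univ_inter, sum_const, nsmul_eq_mul]
      have : (S.card : ℝ) ≠ 0 := by exact_mod_cast (card_pos.2 ⟨x, h.1⟩).ne'
      field_simp
    · exact sum_eq_zero fun w _ => if_neg fun h' => h ⟨h'.1, h'.2.1⟩
  have hn : ∀ x w, 0 ≤ ∑ S, (if x ∈ S ∧ w ∈ S then μ S / S.card else 0) := fun x w =>
    sum_nonneg fun S _ => by split_ifs; exacts [div_nonneg (h0 S) (by positivity), le_rfl]
  have hone : ∀ x, ∑ w, ∑ S, (if x ∈ S ∧ w ∈ S then μ S / S.card else 0) = 1 := fun x => by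
    simpa [h1] using hs x x
  refine ⟨fun x w => ∑ S, if x ∈ S ∧ w ∈ S then μ S / S.card else 0, hn, hone,
    fun x y hxy => ?_, fun x => ?_⟩
  · refine (h2 x y hxy).trans ?_
    rw [← hs]
    refine sum_le_sum fun w _ => le_min (sum_le_sum fun S _ => ?_) (sum_le_sum fun S _ => ?_)
    all_goals
      have : 0 ≤ μ S / S.card := div_nonneg (h0 S) (by positivity)
      by_cases a : x ∈ S <;> by_cases b : y ∈ S <;> by_cases c : w ∈ S <;> simp [a, b, c, this]
  · have hL := one_le_LL X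
    have h4 : ∀ w, (∑ S, if x ∈ S ∧ w ∈ S then μ S / S.card else 0) * ((dist x w / r) ^ p / A) ≤
        (∑ S, if x ∈ S ∧ w ∈ S then μ S / S.card else 0) * (2 * LL X) + 1 * exp (-(2 * LL X / 2)) :=
      fun w => tail_le (hn x w) zero_le_one (by linarith) (by
        rw [one_mul]
        refine le_trans ?_ (h3 x w)
        rw [hμ]
        refine sum_le_sum fun S _ => ?_
        split_ifs with h
        · exact div_le_self (h0 S) (by exact_mod_cast card_pos.2 ⟨x, h.1⟩)
        · exact le_rfl)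
    have h5 := sum_le_sum fun w (_ : w ∈ univ) => h4 w
    rw [sum_add_distrib, ← sum_mul, hone, sum_const, card_univ, nsmul_eq_mul,
      mul_div_cancel_left₀ _ two_ne_zero] at h5
    simp only [← mul_div_assoc, ← sum_div] at h5
    rw [div_le_iff₀ hA] at h5
    nlinarith [card_mul_exp_le X]

variable {Ω : Type} [Fintype Ω]

omit [Fintype X] [DecidableEq X] in
lemma sum_div_rpow {p : ℝ} {g : Ω → X → ℝ} (hd : ∀ x y, dist x y ^ p = ∑ ω, |g ω x - g ω y| ^ p)
    {r : ℝ} (hr : 0 < r) (x y : X) : ∑ ω, |(g ω x - g ω y) / r| ^ p = (dist x y / r) ^ p := by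
  simp only [abs_div, abs_of_pos hr, div_rpow (abs_nonneg _) hr.le, div_rpow dist_nonneg hr.le,
    hd, sum_div]

lemma Sep.cf {p τ τ' r B : ℝ} (h : Sep X p τ r B) (hp : 2 ≤ p) (hτ : 0 < τ') (hr : 0 < r)
    (hB : 1 ≤ B) {g : Ω → X → ℝ} (hd : ∀ x y, dist x y ^ p = ∑ ω, |g ω x - g ω y| ^ p) :
    CF X p (τ + τ') r (5 * (p / 2) ^ 2 * (2 * 2 ^ p * 2 ^ p) / τ' ^ 2 * B ^ (1 - 2 / p)) := by
  obtain ⟨ρ, h0, h1, h2, h3⟩ := h
  have hp0 : 0 < p := by linarith
  set t := B ^ (1 / p) with ht
  have ht1 : 1 ≤ t := one_le_rpow hB (by positivity)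
  have htp : t ^ p = B := by
    rw [ht, ← rpow_mul (by linarith), one_div_mul_cancel hp0.ne', rpow_one]
  have ht2 : B ^ (1 - 2 / p) * t ^ 2 = B := by
    rw [ht, ← rpow_natCast, ← rpow_mul (by linarith), ← rpow_add (by linarith)]
    have : 1 - 2 / p + 1 / p * (2 : ℕ) = 1 := by push_cast; ring
    rw [this, rpow_one]
  set κ := √(τ' ^ 2 * t ^ 2 / ((p / 2) ^ 2 * (2 * 2 ^ p))) with hκ
  have hκ2 : κ ^ 2 = τ' ^ 2 * t ^ 2 / ((p / 2) ^ 2 * (2 * 2 ^ p)) := sq_sqrt (by positivity)
  have hR : 0 < r * t := by positivity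
  choose k hk1 hk2 hk3 using fun z : X =>
    exists_gauss (fun (x : X) (ω : Ω) => κ * mz (p / 2) ((g ω x - g ω z) / (r * t)))
  have hsq : ∀ a : ℝ, 0 ≤ a → ∀ s : ℝ, (a ^ s) ^ 2 = a ^ (2 * s) := fun a ha s => by
    rw [← rpow_natCast, ← rpow_mul ha]; push_cast; ring_nf
  have hdiff : ∀ ω x y z, (g ω x - g ω z) / (r * t) - (g ω y - g ω z) / (r * t) =
      (g ω x - g ω y) / (r * t) := fun ω x y z => by ring
  refine ⟨fun x y => ∑ z, min (ρ x z) (ρ y z) * k z x y,
    IsCP.sum fun z => (isCP_min _ fun x => h0 x z).mul (hk1 z), fun x => by simp [hk2, h1],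
    fun x y hxy => ?_, fun x y => ?_⟩
  · have e1 : ∀ z, 1 - k z x y ≤ τ' / 2 + τ' / 4 * ((dist x z / r) ^ p / B + 1) := by
      intro z
      have e2 : ∑ ω, (κ * mz (p / 2) ((g ω x - g ω z) / (r * t)) -
          κ * mz (p / 2) ((g ω y - g ω z) / (r * t))) ^ 2 ≤
          ∑ ω, τ' ^ 2 / 2 * (|(g ω x - g ω z) / (r * t)| ^ p + |(g ω x - g ω y) / r| ^ p) := by
        refine sum_le_sum fun ω _ => ?_
        have e3 := (mz_bounds (s := p / 2) (by linarith) ((g ω x - g ω z) / (r * t))
          ((g ω y - g ω z) / (r * t))).2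
        rw [hdiff] at e3
        set α := (g ω x - g ω z) / (r * t)
        set β := (g ω y - g ω z) / (r * t)
        set u := |(g ω x - g ω y) / r| with hu
        have hu0 : 0 ≤ u := abs_nonneg _
        have e4 : |(g ω x - g ω y) / (r * t)| = u / t := by
          rw [hu, ← div_div, abs_div, abs_of_pos (show 0 < t by linarith)]
        have e5 : max |α| |β| ≤ |α| + u := by
          refine max_le (by linarith) ?_
          have := abs_sub_abs_le_abs_sub β α
          rw [abs_sub_comm, hdiff, e4] at this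
          linarith [div_le_self hu0 ht1]
        have e6 : |mz (p / 2) α - mz (p / 2) β| ≤ p / 2 * (((|α| + u) / t) *
            (|α| + u) ^ (p / 2 - 1)) := by
          refine e3.trans ?_
          rw [e4, mul_assoc]
          gcongr
          · exact le_add_of_nonneg_left (abs_nonneg _)
          · linarith
        have e7 : (|α| + u) / t * (|α| + u) ^ (p / 2 - 1) = (|α| + u) ^ (p / 2) / t := by
          rw [div_mul_eq_mul_div, mul_comm, ← rpow_add_one' (by positivity) (by linarith)]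
          ring_nf
        rw [e7] at e6
        have e8 := pow_le_pow_left₀ (abs_nonneg _) e6 2
        rw [sq_abs, mul_pow, div_pow (_ ^ _), hsq _ (by positivity),
          mul_div_cancel₀ _ two_ne_zero] at e8
        have e9 := add_rpow_le_two (abs_nonneg α) hu0 hp0.le
        rw [← mul_sub, mul_pow, hκ2]
        calc _ ≤ τ' ^ 2 * t ^ 2 / ((p / 2) ^ 2 * (2 * 2 ^ p)) *
              ((p / 2) ^ 2 * (2 ^ p * (|α| ^ p + u ^ p) / t ^ 2)) := by
              gcongr
              exact e8.trans (by gcongr)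
          _ = _ := by field_simp
      rw [← mul_sum, sum_add_distrib, sum_div_rpow hd hR, sum_div_rpow hd hr, ← div_div,
        div_rpow (by positivity) (by linarith), htp] at e2
      have e3 := (hk3 z x y).1.trans e2
      have e4 : (dist x y / r) ^ p ≤ 1 :=
        rpow_le_one (by positivity) ((div_le_one hr).2 hxy) hp0.le
      have e5 : τ' ^ 2 / 2 * ((dist x z / r) ^ p / B + (dist x y / r) ^ p) ≤
          τ' ^ 2 / 2 * ((dist x z / r) ^ p / B + 1) := by gcongr
      refine le_of_mul_le_mul_left ?_ hτ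
      nlinarith [sq_nonneg (1 - k z x y - τ')]
    have e2 : ∑ z, min (ρ x z) (ρ y z) * (1 - k z x y) ≤
        ∑ z, ρ x z * (τ' / 2 + τ' / 4 * ((dist x z / r) ^ p / B + 1)) := sum_le_sum fun z _ =>
      (mul_le_mul_of_nonneg_left (e1 z) (le_min (h0 _ _) (h0 _ _))).trans
        (mul_le_mul_of_nonneg_right (min_le_left _ _) (by positivity))
    have e3 : ∑ z, ρ x z * (τ' / 2 + τ' / 4 * ((dist x z / r) ^ p / B + 1)) =
        τ' / 2 * ∑ z, ρ x z + τ' / 4 * ((∑ z, ρ x z * (dist x z / r) ^ p) / B + ∑ z, ρ x z) := by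
      simp only [mul_add, mul_sum, sum_div, ← sum_add_distrib]
      exact sum_congr rfl fun z _ => by ring
    rw [e3, h1] at e2
    simp only [mul_sub, mul_one, sum_sub_distrib] at e2
    have e4 : (∑ z, ρ x z * (dist x z / r) ^ p) / B ≤ 1 := (div_le_one (by linarith)).2 (h3 x)
    nlinarith [h2 x y hxy]
  · have e1 : ∀ z, k z x y ≤ exp (-((dist x y / r) ^ p /
        (5 * (p / 2) ^ 2 * (2 * 2 ^ p * 2 ^ p) / τ' ^ 2 * B ^ (1 - 2 / p)))) := by
      intro z
      refine (hk3 z x y).2.trans (exp_le_exp.2 ?_)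
      have e2 : ∑ ω, κ ^ 2 / 2 ^ p * |(g ω x - g ω y) / (r * t)| ^ p ≤
          ∑ ω, (κ * mz (p / 2) ((g ω x - g ω z) / (r * t)) -
          κ * mz (p / 2) ((g ω y - g ω z) / (r * t))) ^ 2 := by
        refine sum_le_sum fun ω _ => ?_
        have e3 := (mz_bounds (s := p / 2) (by linarith) ((g ω x - g ω z) / (r * t))
          ((g ω y - g ω z) / (r * t))).1
        rw [hdiff] at e3
        have e4 := pow_le_pow_left₀ (by positivity) e3 2
        rw [sq_abs, hsq _ (by positivity), mul_div_cancel₀ _ two_ne_zero,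
          div_rpow (abs_nonneg _) (by norm_num)] at e4
        rw [← mul_sub, mul_pow, div_mul_eq_mul_div, mul_div_assoc]
        gcongr
      rw [← mul_sum, sum_div_rpow hd hR, ← div_div, div_rpow (by positivity) (by linarith), htp,
        hκ2] at e2
      rw [neg_div, neg_le_neg_iff, le_div_iff₀ (by norm_num)]
      refine le_trans (le_of_eq ?_) e2
      have hB' : 0 < B ^ (1 - 2 / p) := by positivity
      set w := B ^ (1 - 2 / p)
      rw [← ht2]
      field_simp
    calc _ ≤ ∑ z, ρ x z * exp (-((dist x y / r) ^ p /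
        (5 * (p / 2) ^ 2 * (2 * 2 ^ p * 2 ^ p) / τ' ^ 2 * B ^ (1 - 2 / p)))) :=
          sum_le_sum fun z _ => (mul_le_mul_of_nonneg_left (e1 z) (le_min (h0 _ _) (h0 _ _))).trans
            (mul_le_mul_of_nonneg_right (min_le_left _ _) (exp_pos _).le)
      _ = _ := by rw [← sum_mul, h1, one_mul]

end Vale.Agent.P249
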