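import Vale.Agent.P249.Sep

/-! Overlap kernels for all exponents. -/

namespace Vale.Agent.P249

open Finset Real

lemma trig_upper {p c : ℝ} (hp : 1 ≤ p) (hp2 : p < 2) (hc : 0 < c) (K : ℕ) (δ : ℝ) :
    ∑ j ∈ range K, (c * 2 ^ j) ^ p * (2 - 2 * cos (δ / (c * 2 ^ j))) ≤
      (8 + 2 ^ (2 - p) / (2 ^ (2 - p) - 1)) * |δ| ^ p := by
  rcases eq_or_ne δ 0 with rfl | hδ
  · simp [zero_rpow (show p ≠ 0 by linarith)]
  have hδ' : 0 < |δ| := abs_pos.2 hδ
  have hq : (2 : ℝ) ≤ 2 ^ p := by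
    simpa using rpow_le_rpow_of_exponent_le one_le_two hp
  have hq' : (1 : ℝ) < 2 ^ (2 - p) := one_lt_rpow one_lt_two (by linarith)
  have e1 : ∀ (j : ℕ) (s : ℝ), (c * 2 ^ j) ^ s = c ^ s * (2 ^ s) ^ j := fun j s => by
    rw [mul_rpow hc.le (by positivity), ← rpow_natCast, ← rpow_mul zero_le_two, mul_comm (j : ℝ),
      rpow_mul zero_le_two, rpow_natCast]
  rw [← sum_filter_add_sum_filter_not (range K) fun j => c * 2 ^ j ≤ |δ|, add_mul]
  refine add_le_add ?_ ?_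
  · have h1 := sum_geom_le ((range K).filter fun j => c * 2 ^ j ≤ |δ|) (c := c ^ p) (q := 2 ^ p)
      (a := |δ| ^ p) (by positivity) (by linarith) (by positivity) fun j hj => by
        rw [← e1]; exact rpow_le_rpow (by positivity) (mem_filter.1 hj).2 (by linarith)
    have h2 : (2 : ℝ) ^ p / (2 ^ p - 1) ≤ 2 := by rw [div_le_iff₀ (by linarith)]; linarith
    have h3 := mul_le_mul_of_nonneg_left h2 (show 0 ≤ |δ| ^ p by positivity)
    refine le_trans (sum_le_sum (g := fun j => 4 * (c ^ p * (2 ^ p) ^ j)) fun j _ => ?_) ?_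
    · rw [← e1, mul_comm]
      gcongr
      linarith [neg_one_le_cos (δ / (c * 2 ^ j))]
    · rw [← mul_sum]; linarith
  · have e2 : ∀ j : ℕ, (c * 2 ^ j) ^ p * (δ / (c * 2 ^ j)) ^ 2 =
        δ ^ 2 / c ^ (2 - p) / (2 ^ (2 - p)) ^ j := fun j => by
      rw [div_div, ← e1, rpow_sub (by positivity), div_pow, rpow_two]
      field_simp
    have h1 := sum_geom_inv_le ((range K).filter fun j => ¬ c * 2 ^ j ≤ |δ|)
      (c := δ ^ 2 / c ^ (2 - p)) (q := 2 ^ (2 - p)) (a := |δ| ^ p) (by positivity) hq'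
      (by positivity) fun j hj => by
        rw [div_div, ← e1, div_le_iff₀ (by positivity)]
        have h2 : |δ| ^ (2 - p) ≤ (c * 2 ^ j) ^ (2 - p) :=
          rpow_le_rpow hδ'.le (not_le.1 (mem_filter.1 hj).2).le (by linarith)
        calc δ ^ 2 = |δ| ^ p * |δ| ^ (2 - p) := by
              rw [← rpow_add hδ', add_sub_cancel, rpow_two, sq_abs]
          _ ≤ _ := by gcongr
    rw [mul_comm]
    refine le_trans (sum_le_sum fun j _ => ?_) h1
    rw [← e2]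
    gcongr
    linarith [one_sub_sq_div_two_le_cos (x := δ / (c * 2 ^ j))]

lemma trig_lower {p c δ : ℝ} (hp : 1 ≤ p) (hc : 0 < c) {K : ℕ} (h1 : 0 < |δ| → c ≤ |δ|)
    (h2 : |δ| ≤ c * 2 ^ K) :
    |δ| ^ p / 10 ≤ ∑ j ∈ range (K + 1), (c * 2 ^ j) ^ p * (2 - 2 * cos (δ / (c * 2 ^ j))) := by
  have h0 : ∀ j ∈ range (K + 1), 0 ≤ (c * 2 ^ j) ^ p * (2 - 2 * cos (δ / (c * 2 ^ j))) :=
    fun j _ => mul_nonneg (by positivity) (by linarith [cos_le_one (δ / (c * 2 ^ j))])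
  rcases eq_or_ne δ 0 with rfl | hδ
  · simp [zero_rpow (show p ≠ 0 by linarith)]
  obtain ⟨j, hj, h3, h4⟩ := exists_dyadic (h1 (abs_pos.2 hδ)) hc h2
  refine le_trans ?_ (single_le_sum h0 (mem_range.2 (show j < K + 1 by omega)))
  have hs : 0 < c * 2 ^ j := by positivity
  have h5 : |δ / (c * 2 ^ j)| ≤ 1 := by rw [abs_div, abs_of_pos hs, div_le_one hs]; exact h3
  have h6 : 1 / 2 ≤ |δ / (c * 2 ^ j)| := by
    rw [abs_div, abs_of_pos hs, le_div_iff₀ hs]; linarith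
  have h7 := cos_le_one_sub_mul_cos_sq (h5.trans (by linarith [pi_gt_three]))
  have h8 : (1 : ℝ) / 5 ≤ 2 / π ^ 2 := by
    rw [div_le_div_iff₀ (by norm_num) (by positivity)]
    nlinarith [pi_lt_d2, pi_pos]
  have h9 := mul_le_mul_of_nonneg_right h8 (sq_nonneg (δ / (c * 2 ^ j)))
  have h10 : 1 / 4 ≤ (δ / (c * 2 ^ j)) ^ 2 := by rw [← sq_abs]; nlinarith
  rw [div_eq_mul_inv]
  exact mul_le_mul (rpow_le_rpow (abs_nonneg _) h3 (by linarith)) (by linarith) (by norm_num)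
    (by positivity)

variable {X : Type} [MetricSpace X] [Fintype X] [DecidableEq X] {Ω : Type} [Fintype Ω]

lemma cf_small {p τ r : ℝ} (hp : 1 ≤ p) (hp2 : p < 2) (hτ : 0 < τ) (hr : 0 < r)
    {g : Ω → X → ℝ} (hd : ∀ x y, dist x y ^ p = ∑ ω, |g ω x - g ω y| ^ p) :
    CF X p τ r (50 * (8 + 2 ^ (2 - p) / (2 ^ (2 - p) - 1)) / τ ^ 2) := by
  have hq' : (1 : ℝ) < 2 ^ (2 - p) := one_lt_rpow one_lt_two (by linarith)
  set c₁ : ℝ := 8 + 2 ^ (2 - p) / (2 ^ (2 - p) - 1) with hc₁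
  have hc₁0 : 0 < c₁ := by have := sub_pos.2 hq'; positivity
  obtain ⟨c, hc, hc'⟩ := exists_base fun t : Ω × X × X => |(g t.1 t.2.1 - g t.1 t.2.2) / r|
  obtain ⟨K, hK⟩ := exists_top (fun t : Ω × X × X => |(g t.1 t.2.1 - g t.1 t.2.2) / r|) hc
  obtain ⟨k, hk1, hk2, hk3⟩ := exists_gauss fun (x : X) (i : Ω × Fin (K + 1) × Bool) =>
    √(τ ^ 2 / c₁ * (c * 2 ^ (i.2.1 : ℕ)) ^ p) *
      if i.2.2 then cos (g i.1 x / r / (c * 2 ^ (i.2.1 : ℕ)))
      else sin (g i.1 x / r / (c * 2 ^ (i.2.1 : ℕ)))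
  have hsum : ∀ x y : X, ∑ i : Ω × Fin (K + 1) × Bool,
      (√(τ ^ 2 / c₁ * (c * 2 ^ (i.2.1 : ℕ)) ^ p) *
        (if i.2.2 then cos (g i.1 x / r / (c * 2 ^ (i.2.1 : ℕ)))
        else sin (g i.1 x / r / (c * 2 ^ (i.2.1 : ℕ)))) -
      √(τ ^ 2 / c₁ * (c * 2 ^ (i.2.1 : ℕ)) ^ p) *
        (if i.2.2 then cos (g i.1 y / r / (c * 2 ^ (i.2.1 : ℕ)))
        else sin (g i.1 y / r / (c * 2 ^ (i.2.1 : ℕ))))) ^ 2 =
      τ ^ 2 / c₁ * ∑ ω, ∑ j ∈ range (K + 1), (c * 2 ^ j) ^ p *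
        (2 - 2 * cos ((g ω x - g ω y) / r / (c * 2 ^ j))) := by
    intro x y
    rw [Fintype.sum_prod_type, mul_sum]
    refine sum_congr rfl fun ω _ => ?_
    rw [Fintype.sum_prod_type, mul_sum, ← Fin.sum_univ_eq_sum_range
      (fun j => τ ^ 2 / c₁ * ((c * 2 ^ j) ^ p *
        (2 - 2 * cos ((g ω x - g ω y) / r / (c * 2 ^ j)))))]
    refine sum_congr rfl fun j _ => ?_
    simp only [Fintype.sum_bool, if_true, Bool.false_eq_true, if_false, ← mul_sub, mul_pow]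
    rw [sq_sqrt (by positivity), sub_div, sub_div, cos_sub]
    nlinarith [sin_sq_add_cos_sq (g ω x / r / (c * 2 ^ (j : ℕ))),
      sin_sq_add_cos_sq (g ω y / r / (c * 2 ^ (j : ℕ))),
      show 0 < τ ^ 2 / c₁ * (c * 2 ^ (j : ℕ)) ^ p by positivity]
  simp only [hsum] at hk3
  refine ⟨k, hk1, hk2, fun x y hxy => ?_, fun x y => (hk3 x y).2.trans (exp_le_exp.2 ?_)⟩
  · have h1 := sum_le_sum fun ω (_ : ω ∈ univ) =>
      trig_upper hp hp2 hc (K + 1) ((g ω x - g ω y) / r)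
    rw [← mul_sum, sum_div_rpow hd hr] at h1
    have h2 : (dist x y / r) ^ p ≤ 1 :=
      rpow_le_one (by positivity) ((div_le_one hr).2 hxy) (by linarith)
    have h3 := (hk3 x y).1.trans (mul_le_mul_of_nonneg_left
      (h1.trans (mul_le_of_le_one_right hc₁0.le h2)) (by positivity))
    rw [div_mul_cancel₀ _ hc₁0.ne'] at h3
    linarith [(abs_le_of_sq_le_sq' h3 hτ.le).2]
  · have h1 := sum_le_sum fun ω (_ : ω ∈ univ) =>
      trig_lower hp hc (hc' (ω, x, y)) (hK (ω, x, y))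
    rw [← sum_div, sum_div_rpow hd hr] at h1
    rw [neg_div, neg_le_neg_iff, le_div_iff₀ (by norm_num)]
    refine le_trans (le_of_eq ?_) (mul_le_mul_of_nonneg_left h1 (by positivity))
    field_simp
    ring

/-- Uniform concentration with moment of order `L ^ β`. -/
def SepP (p β : ℝ) : Prop :=
  ∀ τ > 0, ∃ C ≥ 1, ∀ (X : Type) [MetricSpace X] [Fintype X] [DecidableEq X] (Ω : Type)
    [Fintype Ω] (g : Ω → X → ℝ), (∀ x y, dist x y ^ p = ∑ ω, |g ω x - g ω y| ^ p) →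
    ∀ r > 0, Sep X p τ r (C * LL X ^ β)

/-- Uniform decay with parameter of order `L ^ α`. -/
def CFP (p α : ℝ) : Prop :=
  ∀ τ > 0, ∃ C ≥ 1, ∀ (X : Type) [MetricSpace X] [Fintype X] [DecidableEq X] (Ω : Type)
    [Fintype Ω] (g : Ω → X → ℝ), (∀ x y, dist x y ^ p = ∑ ω, |g ω x - g ω y| ^ p) →
    ∀ r > 0, CF X p τ r (C * LL X ^ α)

lemma CF.mono {p τ r A A' : ℝ} (h : CF X p τ r A) (hr : 0 < r) (hA : 0 < A) (hA' : A ≤ A') :
    CF X p τ r A' := by
  obtain ⟨k, h1, h2, h3, h4⟩ := h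
  refine ⟨k, h1, h2, h3, fun x y => (h4 x y).trans ?_⟩
  rw [exp_le_exp, neg_le_neg_iff]
  gcongr

omit [DecidableEq X] in
lemma Sep.mono {p τ r B B' : ℝ} (h : Sep X p τ r B) (hB : B ≤ B') : Sep X p τ r B' := by
  obtain ⟨k, h1, h2, h3, h4⟩ := h
  exact ⟨k, h1, h2, h3, fun x => (h4 x).trans hB⟩

lemma SepP.cfp {p β : ℝ} (h : SepP p β) (hp : 2 ≤ p) (hβ : 0 ≤ β) : CFP p (β * (1 - 2 / p)) := by
  intro τ hτ
  obtain ⟨C, hC, h1⟩ := h (τ / 2) (half_pos hτ)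
  refine ⟨max 1 (5 * (p / 2) ^ 2 * (2 * 2 ^ p * 2 ^ p) / (τ / 2) ^ 2 * C ^ (1 - 2 / p)),
    le_max_left _ _, fun X _ _ _ Ω _ g hd r hr => ?_⟩
  have hL := one_le_LL X
  have h2 := (h1 X Ω g hd r hr).cf hp (half_pos hτ) hr
    (one_le_mul_of_one_le_of_one_le hC (one_le_rpow hL hβ)) hd
  rw [add_halves] at h2
  refine h2.mono hr (by positivity) ?_
  rw [mul_rpow (by linarith) (by positivity), ← rpow_mul (by linarith), ← mul_assoc]
  gcongr
  exact le_max_right _ _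

lemma CFP.sepP {p α : ℝ} (h : CFP p α) : SepP p (1 + α) := by
  intro τ hτ
  obtain ⟨C, hC, h1⟩ := h τ hτ
  refine ⟨3 * C, by linarith, fun X _ _ _ Ω _ g hd r hr => ?_⟩
  have hL := one_le_LL X
  refine ((h1 X Ω g hd r hr).sep (by positivity)).mono (le_of_eq ?_)
  rw [rpow_add (by linarith), rpow_one]
  ring

lemma CFP.mono {p α α' : ℝ} (h : CFP p α) (hα : α ≤ α') : CFP p α' := by
  intro τ hτ
  obtain ⟨C, hC, h1⟩ := h τ hτ
  refine ⟨C, hC, fun X _ _ _ Ω _ g hd r hr => ?_⟩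
  have hL := one_le_LL X
  refine (h1 X Ω g hd r hr).mono hr (by positivity) ?_
  gcongr

theorem cfp {p α : ℝ} (hp : 1 ≤ p) (h0 : 0 ≤ α) (hα : p / 2 - 1 < α) : CFP p α := by
  rcases lt_or_ge p 2 with hp2 | hp2
  · intro τ hτ
    refine ⟨max 1 (50 * (8 + 2 ^ (2 - p) / (2 ^ (2 - p) - 1)) / τ ^ 2), le_max_left _ _,
      fun X _ _ _ Ω _ g hd r hr => ?_⟩
    have hq' : (0 : ℝ) < 2 ^ (2 - p) - 1 := sub_pos.2 (one_lt_rpow one_lt_two (by linarith))
    refine (cf_small hp hp2 hτ hr hd).mono hr (by positivity) ?_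
    exact (le_max_right _ _).trans (le_mul_of_one_le_right (by positivity)
      (one_le_rpow (one_le_LL X) h0))
  have hq0 : 0 ≤ 1 - 2 / p := by rw [sub_nonneg, div_le_one (by linarith)]; exact hp2
  have hq1 : 1 - 2 / p < 1 := by have : 0 < 2 / p := by positivity
                                 linarith
  have key : ∀ j : ℕ, SepP p (p / 2 + p / 2 * (1 - 2 / p) ^ j) := by
    intro j
    induction j with
    | zero =>
      intro τ hτ
      refine ⟨max 1 ((2 / τ) ^ p * (2 ^ p + (2 * p) ^ p)), le_max_left _ _,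
        fun X _ _ _ Ω _ g hd r hr => (sep_base X (by linarith) hτ hr).mono ?_⟩
      have hL := one_le_LL X
      rw [pow_zero, mul_one, add_halves]
      gcongr
      exact le_max_right _ _
    | succ j ih =>
      have := (ih.cfp hp2 (by positivity)).sepP
      convert this using 1
      rw [pow_succ]
      generalize (1 - 2 / p) ^ j = w
      field_simp
      ring
  obtain ⟨j, hj⟩ := exists_pow_lt_of_lt_one (show 0 < (α - (p / 2 - 1)) / (p / 2) from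
    div_pos (by linarith) (by linarith)) hq1
  refine ((key j).cfp hp2 (by positivity)).mono ?_
  rw [lt_div_iff₀ (by linarith)] at hj
  have h1 : p / 2 * (1 - 2 / p) = p / 2 - 1 := by field_simp
  have h2 : 0 ≤ p / 2 * (1 - 2 / p) ^ j := by positivity
  nlinarith

end Vale.Agent.P249
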